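import Vale.Agent.P042.H386.K5

set_option autoImplicit false

/-! P042, row F.KER: good primes of a fibre polynomial; from 383's one-prime facts to `PrSt`. -/

namespace Vale.Agent.P042.H386

open Finset Polynomial Vale.Agent.P042.H74 Vale.Agent.P042.SS Vale.Agent.P042.H954
open Vale.Agent.P042.H599 (cm Law klu)

set_option linter.unusedSectionVars false

/-- nonconstant modulo `p`, two forms -/
theorem nc_iff {f : ℤ[X]} {p : ℕ} (hp : p.Prime) :
    (∃ j : ℕ, 1 ≤ j ∧ ¬ (p : ℤ) ∣ f.coeff j) ↔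
      1 ≤ (f.map (Int.castRingHom (ZMod p))).natDegree := by
  have : Fact p.Prime := ⟨hp⟩
  constructor
  · rintro ⟨j, hj, hjc⟩
    refine hj.trans (le_natDegree_of_ne_zero ?_)
    rw [coeff_map]
    intro h
    apply hjc
    rw [← ZMod.intCast_zmod_eq_zero_iff_dvd]
    simpa using h
  · intro h
    refine ⟨_, h, fun h1 => ?_⟩
    have h2 : (f.map (Int.castRingHom (ZMod p))).coeff
        (f.map (Int.castRingHom (ZMod p))).natDegree ≠ 0 := by
      rw [coeff_natDegree, Ne, leadingCoeff_eq_zero]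
      intro h3
      rw [h3, natDegree_zero] at h
      omega
    apply h2
    rw [coeff_map]
    rw [← ZMod.intCast_zmod_eq_zero_iff_dvd] at h1
    simpa using h1

/-- a good prime of `f` which does not divide `q` is good for the fibre polynomial -/
theorem GP.fer {f : ℤ[X]} {p : ℕ} (h : GP f p) {q : ℕ} (hq : ¬ p ∣ q) (z : ℤ) :
    GP (fer f q z) p := by
  have : Fact p.Prime := ⟨h.pr⟩
  have hq1 : 1 ≤ q := Nat.one_le_iff_ne_zero.2 fun h0 => hq (h0 ▸ dvd_zero p)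
  have hd := fer_natDegree f q hq1 z
  refine ⟨h.pr, by rw [hd]; exact h.big, by rw [hd]; exact h.k1, ?_⟩
  rw [nc_iff h.pr, fer_eq_comp, map_comp, natDegree_comp]
  have h1 := (nc_iff h.pr).1 h.nc
  have hq0 : ((q : ℤ) : ZMod p) ≠ 0 := by
    rw [Ne, ZMod.intCast_zmod_eq_zero_iff_dvd]
    exact fun h2 => hq (by exact_mod_cast h2)
  have h2 : ((C z + C (q : ℤ) * X : ℤ[X]).map (Int.castRingHom (ZMod p))).natDegree = 1 := by
    rw [Polynomial.map_add, Polynomial.map_mul, map_C, map_C, map_X, add_comm]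
    exact natDegree_linear (by simpa using hq0)
  rw [h2, mul_one]
  exact h1

/-- **from 383's facts at one prime to `PrSt`** -/
theorem prSt_of {a3 gr α : ℝ} (h3 : a3 ≤ α) (hgr : gr < α) :
    ∃ K0 : ℝ, 1 ≤ K0 ∧ ∀ (f : ℤ[X]) (nu : ℕ → ℝ) (A M p : ℕ), K0 ≤ p →
      (∀ a, p * cm nu A M p a ≤ (p : ℝ) ^ a3) →
      (∀ a < p, cm nu A M p a ≠ 0 →
        (p : ℝ) ^ (-gr) / 4 ≤ ∑ b ∈ range p, cm nu A M p b * (1 + kN f p ((a : ℤ) - b)) ∧
        (p : ℝ) ^ (-gr) / 4 ≤ ∑ b ∈ range p, cm nu A M p b * (1 + kN f p ((b : ℤ) - a))) →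
      PrSt f nu A M ((p : ℝ) ^ α) p := by
  refine ⟨(4 : ℝ) ^ (1 / (α - gr)), Real.one_le_rpow (by norm_num) (by
    have : 0 < α - gr := by linarith
    positivity), fun f nu A M p hp hs hr => ?_⟩
  have hd : 0 < α - gr := by linarith
  have h1 : (1 : ℝ) ≤ (4 : ℝ) ^ (1 / (α - gr)) := Real.one_le_rpow (by norm_num) (by positivity)
  have hp1 : (1 : ℝ) ≤ p := h1.trans hp
  have hp0 : (0 : ℝ) < p := by linarith
  have h4 : (4 : ℝ) ≤ (p : ℝ) ^ (α - gr) := by
    have h2 := Real.rpow_le_rpow (by positivity) hp hd.le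
    rw [← Real.rpow_mul (by norm_num), one_div, inv_mul_cancel₀ hd.ne', Real.rpow_one] at h2
    exact h2
  have h5 : ((p : ℝ) ^ α)⁻¹ ≤ (p : ℝ) ^ (-gr) / 4 := by
    rw [Real.rpow_sub hp0, le_div_iff₀ (Real.rpow_pos_of_pos hp0 _)] at h4
    rw [Real.rpow_neg hp0.le, le_div_iff₀ (by norm_num)]
    have g1 := Real.rpow_pos_of_pos hp0 α
    have g2 := Real.rpow_pos_of_pos hp0 gr
    rw [inv_mul_le_iff₀ g1, ← div_eq_mul_inv, le_div_iff₀ g2]
    exact h4
  exact ⟨fun a => (hs a).trans (Real.rpow_le_rpow_of_exponent_le hp1 h3),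
    fun a ha h0 => h5.trans (hr a ha h0).1, fun a ha h0 => h5.trans (hr a ha h0).2⟩

end Vale.Agent.P042.H386
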