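import Vale.Agent.P042.H92.PDef
import Vale.Agent.P042.H104.PHall

/-!
# P042, power regime: from the hypotheses on one law (`PLaw`) to the data of Theorem H (`H2Hyp`)
-/

set_option autoImplicit false
set_option linter.unusedSectionVars false

namespace Vale.Agent.P042.H386

open Finset Vale.Agent.P042.H92
open Vale.Agent.P042.H779 (marg m1)
open Vale.Agent.P042.H779.Ab (Ref pw Loc gdw)
open Vale.Agent.P042.H779.Ab.Ll (len)

variable {ι : Type*} [Fintype ι] [DecidableEq ι] {V : ι → Type*} [∀ i, Fintype (V i)]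
  [∀ i, DecidableEq (V i)]

section basic

variable {Q : Prm} {S : Finset ι} {ℓ es : ι → ℝ} {lam u : ∀ i, V i → ℝ} {mu : (∀ i, V i) → ℝ}

lemma pl_card (h : PLaw Q S ℓ es lam u mu) (i : ι) :
    (Fintype.card (V i) : ℝ) = Real.exp (ℓ i) := by
  have h1 := h.usum i
  simp only [h.u1 i, sum_const, card_univ, nsmul_eq_mul] at h1
  rw [Real.exp_neg] at h1
  have h2 := Real.exp_pos (ℓ i)
  field_simp at h1
  exact h1

lemma pl_len0 (h : PLaw Q S ℓ es lam u mu) (i : ι) : 0 ≤ ℓ i := by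
  have h1 := pl_card h i
  have h2 : (1 : ℝ) ≤ Fintype.card (V i) := by
    have h3 : Fintype.card (V i) ≠ 0 := by
      intro h0
      rw [h0, Nat.cast_zero] at h1
      exact (Real.exp_pos (ℓ i)).ne h1
    exact_mod_cast Nat.one_le_iff_ne_zero.mpr h3
  rw [h1] at h2
  exact Real.one_le_exp_iff.mp h2

lemma pl_upos (h : PLaw Q S ℓ es lam u mu) (i : ι) (b : V i) : 0 < u i b := by
  rw [h.u1 i b]
  exact Real.exp_pos _

/-- length of a set with at most one site outside `S` -/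
lemma len_le {Y L : ℝ} (hS : ∀ i ∈ S, ℓ i ≤ Y) (hY : 0 ≤ Y)
    (hL : 0 ≤ L) (hall : ∀ i, ℓ i ≤ L) (hone : (univ \ S).card ≤ 1) (A : Finset ι) :
    len ℓ A ≤ L + A.card * Y := by
  have h1 : len ℓ A = ∑ i ∈ A \ S, ℓ i + ∑ i ∈ A ∩ S, ℓ i := by
    unfold H779.Ab.Ll.len
    rw [← sum_union (disjoint_sdiff_inter A S), sdiff_union_inter]
  have h2 : ∑ i ∈ A \ S, ℓ i ≤ L := by
    have h3 : ((A \ S).card : ℝ) ≤ 1 := by
      exact_mod_cast (card_le_card (sdiff_subset_sdiff (subset_univ A) (Subset.refl S))).trans hone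
    calc ∑ i ∈ A \ S, ℓ i ≤ ∑ _i ∈ A \ S, L := sum_le_sum fun i _ => hall i
      _ = (A \ S).card * L := by rw [sum_const, nsmul_eq_mul]
      _ ≤ 1 * L := by gcongr
      _ = L := one_mul L
  have h3 : ∑ i ∈ A ∩ S, ℓ i ≤ A.card * Y := by
    calc ∑ i ∈ A ∩ S, ℓ i ≤ ∑ _i ∈ A ∩ S, Y := sum_le_sum fun i hi => hS i (mem_inter.mp hi).2
      _ = (A ∩ S).card * Y := by rw [sum_const, nsmul_eq_mul]
      _ ≤ A.card * Y := by
        have : ((A ∩ S).card : ℝ) ≤ A.card := by exact_mod_cast card_le_card inter_subset_left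
        gcongr
  linarith

/-- the data of the Gibbs argument -/
theorem data_plaw (h : PLaw Q S ℓ es lam u mu) {Y L : ℝ} (hS : ∀ i ∈ S, ℓ i ≤ Y) (hY : 0 ≤ Y)
    (hL : 0 ≤ L) (hall : ∀ i, ℓ i ≤ L) (hone : (univ \ S).card ≤ 1) (ha0 : 0 ≤ Q.a0)
    (hγ : 0 ≤ Q.γ) {d0 : ℕ} (hd0 : L + d0 * Y ≤ Q.Λ)
    (hsm : ((Fintype.card ι + 1 : ℕ) : ℝ) * (2 * Fintype.card ι + 1) ^ d0 *
      Real.exp (-(Q.c0 * Real.exp Q.p)) ≤ Real.exp (-((1 + Q.γ) * L)) ^ d0) :
    H104.Data lam mu (lamP Q S ℓ) Q.a0 (fun i => Q.γ * ℓ i) d0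
      (Real.exp (-(Q.c0 * Real.exp Q.p))) (Real.exp (-((1 + Q.γ) * L))) where
  ref := h.ref
  δ_pos := Real.exp_pos _
  eic := by
    intro A hA x hx f hf0 hf1 hf
    have hlen : len ℓ A ≤ Q.Λ := by
      have hA' : (A.card : ℝ) ≤ d0 := by exact_mod_cast hA
      calc len ℓ A ≤ L + A.card * Y := len_le hS hY hL hall hone A
        _ ≤ L + d0 * Y := by gcongr
        _ ≤ Q.Λ := hd0
    have h1 := h.eic A hlen x hx f hf0 hf1 hf
    have h2 : costP Q ℓ A = Q.a0 + ∑ i ∈ A, Q.γ * ℓ i := by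
      unfold costP H779.Ab.Ll.len
      rw [mul_sum]
    rw [h2] at h1
    exact h1
  lam_nonneg := by
    intro i
    unfold lamP
    split_ifs
    · exact (Real.exp_pos _).le
    · exact le_rfl
  a_nonneg := ha0
  c_nonneg := fun i => mul_nonneg hγ (pl_len0 h i)
  wm_pos := Real.exp_pos _
  wm_le := by
    have : 0 ≤ (1 + Q.γ) * L := by positivity
    exact Real.exp_le_one_iff.mpr (by linarith)
  atoms := by
    intro i b
    rcases h.lo i b with h0 | h0
    · exact Or.inl h0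
    · right
      refine le_trans ?_ h0
      rw [h.u1 i b, ← Real.exp_add]
      refine Real.exp_le_exp.mpr ?_
      have h1 := hall i
      have h2 := pl_len0 h i
      nlinarith
  small := hsm

/-- degree condition to length condition, for the pinned even moments -/
theorem dc_plaw (h : PLaw Q S ℓ es lam u mu) {Y L : ℝ} (hS : ∀ i ∈ S, ℓ i ≤ Y) (hY : 0 ≤ Y)
    (hL : 0 ≤ L) (hall : ∀ i, ℓ i ≤ L) (hone : (univ \ S).card ≤ 1) {dd : ℕ}
    (hdd : L + dd * Y ≤ Q.Λ) {I : Finset ι} (hI : I ⊆ S) :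
    H685.DCdI I u mu dd (Q.cD * Real.exp Q.p) := by
  intro A U hU hAU b T hT hTd e k hcard
  have hkey : ∀ k' : ℕ, A.card + 2 * k' * e ≤ dd → ∀ E ⊆ U, E.card = e →
      len ℓ A + 2 * k' * len ℓ E ≤ Q.Λ := by
    intro k' hk' E hE hEe
    have h1 : len ℓ A ≤ L + A.card * Y := len_le hS hY hL hall hone A
    have h2 : len ℓ E ≤ e * Y := by
      unfold H779.Ab.Ll.len
      calc ∑ i ∈ E, ℓ i ≤ ∑ _i ∈ E, Y := sum_le_sum fun i hi => hS i (hI (hU (hE hi)))
        _ = e * Y := by rw [sum_const, nsmul_eq_mul, hEe]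
    have h3 : (A.card : ℝ) + 2 * k' * e ≤ dd := by exact_mod_cast hk'
    calc len ℓ A + 2 * k' * len ℓ E ≤ (L + A.card * Y) + 2 * k' * (e * Y) := by gcongr
      _ = L + ((A.card : ℝ) + 2 * k' * e) * Y := by ring
      _ ≤ L + dd * Y := by gcongr
      _ ≤ Q.Λ := hdd
  rcases Nat.eq_zero_or_pos k with hk | hk
  · subst hk
    have h1 := h.dc A U (hU.trans hI) hAU b (fun E _ => if E = ∅ then 1 else 0)
      (fun E x y _ => rfl) (fun E j hj x => by
        have : E ≠ ∅ := ne_empty_of_mem hj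
        simp [this]) 0 1 le_rfl (by
        intro E hE hEe
        have h3 : len ℓ E = 0 := by
          rw [card_eq_zero.mp hEe]
          unfold H779.Ab.Ll.len
          exact sum_empty
        have h4 : len ℓ A ≤ L + A.card * Y := len_le hS hY hL hall hone A
        have h5 : (A.card : ℝ) ≤ dd := by
          have : A.card ≤ dd := by omega
          exact_mod_cast this
        rw [h3, mul_zero, add_zero]
        calc len ℓ A ≤ L + A.card * Y := h4
          _ ≤ L + dd * Y := by gcongr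
          _ ≤ Q.Λ := hdd)
    simpa using h1
  · exact h.dc A U (hU.trans hI) hAU b T (fun E x y hxy => hT E x y fun i hi => hxy i hi) hTd e k
      hk (hkey k hcard)

/-- the level one energy over all high sites -/
theorem lev_plaw (h : PLaw Q S ℓ es lam u mu) {I : Finset ι} (hI : I ⊆ S) {n : ℕ}
    (hlo : ∀ i ∈ I, Q.p / 2 ≤ es i) (hup : ∀ i ∈ I, es i ≤ n + Q.p / 2) :
    ∑ i ∈ I, H565.rho lam u i ≤ (n + 1 : ℕ) * Real.exp ((1 + Q.γ) * Q.p) := by
  have h0 : ∀ i, 0 ≤ H565.rho lam u i := fun i =>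
    H565.rho_nonneg (fun j b => (pl_upos h j b).le) i
  have h1 : ∑ i ∈ I, H565.rho lam u i
      ≤ ∑ k ∈ range (n + 1), ∑ i ∈ S with Q.p / 2 + k ≤ es i ∧ es i ≤ Q.p / 2 + k + 1,
        H565.rho lam u i := by
    rw [sum_comm' (t' := S) (s' := fun i => (range (n + 1)).filter fun k : ℕ =>
      Q.p / 2 + k ≤ es i ∧ es i ≤ Q.p / 2 + k + 1)]
    · calc ∑ i ∈ I, H565.rho lam u i
          ≤ ∑ i ∈ I, ∑ _k ∈ (range (n + 1)).filter fun k : ℕ =>
            Q.p / 2 + k ≤ es i ∧ es i ≤ Q.p / 2 + k + 1, H565.rho lam u i := by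
            refine sum_le_sum fun i hi => ?_
            have h2 : ⌊es i - Q.p / 2⌋₊ ∈ (range (n + 1)).filter fun k : ℕ =>
                Q.p / 2 + k ≤ es i ∧ es i ≤ Q.p / 2 + k + 1 := by
              have h3 : 0 ≤ es i - Q.p / 2 := by linarith [hlo i hi]
              have h4 := Nat.floor_le h3
              have h5 := Nat.lt_floor_add_one (es i - Q.p / 2)
              rw [mem_filter, mem_range]
              refine ⟨?_, by linarith, by linarith⟩
              have h6 : es i - Q.p / 2 ≤ n := by linarith [hup i hi]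
              have h7 := Nat.floor_le_of_le h6
              omega
            exact single_le_sum (f := fun _ => H565.rho lam u i) (fun _ _ => h0 i) h2
        _ ≤ _ := sum_le_sum_of_subset_of_nonneg hI fun i _ _ => sum_nonneg fun _ _ => h0 i
    · intro k i
      simp only [mem_filter]
      tauto
  refine h1.trans ?_
  calc ∑ k ∈ range (n + 1), ∑ i ∈ S with Q.p / 2 + k ≤ es i ∧ es i ≤ Q.p / 2 + k + 1,
        H565.rho lam u i
      ≤ ∑ _k ∈ range (n + 1), Real.exp ((1 + Q.γ) * Q.p) := by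
        refine sum_le_sum fun k _ => h.lev1 _ ?_
        have : (0 : ℝ) ≤ k := Nat.cast_nonneg k
        linarith
    _ = (n + 1 : ℕ) * Real.exp ((1 + Q.γ) * Q.p) := by
        rw [sum_const, card_range, nsmul_eq_mul]

/-- change of the direction of the chi square distance -/
lemma rho_flip (h : PLaw Q S ℓ es lam u mu) {i : ι} {ξ : ℝ} (hξ : 0 < ξ)
    (hlo : ∀ b, lam i b = 0 ∨ ξ * u i b ≤ lam i b) :
    H565.rho u lam i ≤ ξ⁻¹ * H565.rho lam u i := by
  unfold H565.rho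
  rw [mul_sum]
  refine sum_le_sum fun b _ => ?_
  have hu := pl_upos h i b
  rcases hlo b with h0 | h0
  · rw [h0, zero_mul]
    have := sq_nonneg (0 / u i b - 1)
    positivity
  · have hl : 0 < lam i b := lt_of_lt_of_le (by positivity) h0
    have e1 : lam i b * (u i b / lam i b - 1) ^ 2 = (u i b - lam i b) ^ 2 / lam i b := by
      field_simp
    have e2 : ξ⁻¹ * (u i b * (lam i b / u i b - 1) ^ 2) = (u i b - lam i b) ^ 2 / (ξ * u i b) := by
      field_simp
      ring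
    rw [e1, e2]
    exact div_le_div_of_nonneg_left (sq_nonneg _) (by positivity) h0

/-- **The data of Theorem H** for the law and the free high sites `I`. -/
theorem h2_plaw (h : PLaw Q S ℓ es lam u mu) {Y L : ℝ} (hS : ∀ i ∈ S, ℓ i ≤ Y) (hY : 0 ≤ Y)
    (hL : 0 ≤ L) (hall : ∀ i, ℓ i ≤ L) (hone : (univ \ S).card ≤ 1) (ha0 : 0 ≤ Q.a0)
    (hγ : 0 ≤ Q.γ) (hcD : 0 ≤ Q.cD) {d0 dd : ℕ} (hd0 : L + d0 * Y ≤ Q.Λ)
    (hdd : L + dd * Y ≤ Q.Λ)
    (hsm : ((Fintype.card ι + 1 : ℕ) : ℝ) * (2 * Fintype.card ι + 1) ^ d0 *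
      Real.exp (-(Q.c0 * Real.exp Q.p)) ≤ Real.exp (-((1 + Q.γ) * L)) ^ d0)
    {I : Finset ι} (hI : I ⊆ S) {n : ℕ}
    (hlo : ∀ i ∈ I, Q.p / 2 ≤ es i) (hup : ∀ i ∈ I, es i ≤ n + Q.p / 2) :
    H685.H2Hyp u lam mu (lamP Q S ℓ) Q.a0 (fun i => Q.γ * ℓ i) d0
      (Real.exp (-(Q.c0 * Real.exp Q.p))) (Real.exp (-((1 + Q.γ) * L))) I
      (Real.exp (-(Q.γ * Y))) (Q.γ * Y) (Real.exp (Q.γ * Y)) (Real.exp (-(Q.γ * Y)))
      (Real.exp (Q.γ * Y) * ((n + 1 : ℕ) * Real.exp ((1 + Q.γ) * Q.p))) dd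
      (Q.cD * Real.exp Q.p) where
  data := data_plaw h hS hY hL hall hone ha0 hγ hd0 hsm
  u_pos := pl_upos h
  u_sum := h.usum
  up := fun i hi b => (h.up i b).trans (mul_le_mul_of_nonneg_right (Real.exp_le_exp.mpr
    (mul_le_mul_of_nonneg_left (hS i (hI hi)) hγ)) (pl_upos h i b).le)
  rm_one := Real.one_le_exp (mul_nonneg hγ hY)
  lo := by
    intro i hi b
    rcases h.lo i b with h0 | h0
    · exact Or.inl h0
    · right
      refine le_trans (mul_le_mul_of_nonneg_right (Real.exp_le_exp.mpr ?_)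
        (pl_upos h i b).le) h0
      have := mul_le_mul_of_nonneg_left (hS i (hI hi)) hγ
      linarith
  xi_pos := Real.exp_pos _
  xi_one := Real.exp_le_one_iff.mpr (by have := mul_nonneg hγ hY; linarith)
  lev1 := by
    have h1 := lev_plaw h hI hlo hup
    calc ∑ i ∈ I, H565.rho u lam i
        ≤ ∑ i ∈ I, Real.exp (Q.γ * Y) * H565.rho lam u i := by
          refine sum_le_sum fun i hi => ?_
          have h2 := rho_flip h (i := i) (ξ := Real.exp (-(Q.γ * Y))) (Real.exp_pos _) (by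
            intro b
            rcases h.lo i b with h0 | h0
            · exact Or.inl h0
            · right
              refine le_trans (mul_le_mul_of_nonneg_right (Real.exp_le_exp.mpr ?_)
                (pl_upos h i b).le) h0
              have := mul_le_mul_of_nonneg_left (hS i (hI hi)) hγ
              linarith)
          rwa [← Real.exp_neg, neg_neg] at h2
      _ = Real.exp (Q.γ * Y) * ∑ i ∈ I, H565.rho lam u i := by rw [mul_sum]
      _ ≤ _ := mul_le_mul_of_nonneg_left h1 (Real.exp_pos _).le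
  l0_pos := Real.exp_pos _
  l0_one := Real.exp_le_one_iff.mpr (by have := mul_nonneg hγ hY; linarith)
  rate := by
    intro i hi
    unfold lamP
    rw [if_pos (hI hi)]
    refine Real.exp_le_exp.mpr ?_
    have := mul_le_mul_of_nonneg_left (hS i (hI hi)) hγ
    linarith
  cm_nonneg := mul_nonneg hγ hY
  cost := fun i hi => mul_le_mul_of_nonneg_left (hS i (hI hi)) hγ
  dc := dc_plaw h hS hY hL hall hone hdd hI
  D_nonneg := mul_nonneg hcD (Real.exp_pos _).le

end basic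

/-- **Theorem H for all pins, from the hypotheses on one law** (order of the constants as in
`Regime`; at most one site outside `S`). -/
def PHof : Prop := ∀ C1 : ℝ, 4 ≤ C1 → ∃ k0 : ℝ, 0 < k0 ∧ ∀ γ d1 : ℝ, 0 < γ → γ ≤ k0 →
  0 < d1 → d1 ≤ k0 → ∀ a0 : ℝ, 0 ≤ a0 → ∀ θ c0 cD : ℝ, 0 < θ → 0 < c0 → 0 < cD →
  cD ≤ k0 * (γ * θ) → ∃ p0 : ℝ, ∀ p : ℝ, p0 ≤ p → ∀ (kap G : ℝ) (CK : ℕ)
    (ι : Type) [Fintype ι] [DecidableEq ι] (V : ι → Type) [∀ i, Fintype (V i)]
    [∀ i, DecidableEq (V i)] (S : Finset ι) (ℓ es : ι → ℝ) (lam u : ∀ i, V i → ℝ)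
    (mu : (∀ i, V i) → ℝ),
    PLaw ⟨p, C1, γ, a0, θ, c0, cD, kap, d1, G, CK⟩ S ℓ es lam u mu →
    (univ \ S).card ≤ 1 → (∀ i, ℓ i ≤ Real.exp (2 * d1 * p)) →
    (∀ i ∈ S, ℓ i ≤ es i ∧ es i ≤ C1 * p + 1) → (S.card : ℝ) ≤ Real.exp (C1 * p + 3) →
    ∀ Hi ⊆ S, (∀ i ∈ Hi, p / 2 ≤ es i) →
    H161.PH lam (H742.gr lam mu) Hi
      (fun i => (2 * Real.exp 3 * Real.exp a0) ^ 2 * Real.exp (2 * (γ * ℓ i)))
      (Real.exp ((1 - 1 / (24 * C1)) * p)) ⌊Real.exp (3 * d1 * p)⌋₊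

end Vale.Agent.P042.H386
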