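import Vale.Agent.P042.H386.PHLaw

/-!
# P042, power regime: Theorem H for all pins from the hypotheses on one law
-/

set_option autoImplicit false
set_option linter.unusedSectionVars false

namespace Vale.Agent.P042.H386

open Finset Vale.Agent.P042.H92

variable {ι : Type*} [Fintype ι] [DecidableEq ι] {V : ι → Type*} [∀ i, Fintype (V i)]
  [∀ i, DecidableEq (V i)]

/-- the numbers of `ph_plaw` at one value of `p` -/
structure PNum (p C1 γ a0 θ c0 cD d1 : ℝ) (b0 s1 d0 dd d l q n : ℕ) : Prop where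
  p_pos : 0 ≤ p
  b0_eq : b0 = ⌊Real.exp (3 * d1 * p)⌋₊
  b0_le : b0 ≤ d0
  len0 : Real.exp (2 * d1 * p) + d0 * (C1 * p + 1) ≤ θ * Real.exp p
  lend : Real.exp (2 * d1 * p) + dd * (C1 * p + 1) ≤ θ * Real.exp p
  small : ∀ N : ℕ, (N : ℝ) ≤ Real.exp (C1 * p + 3) + 1 →
    ((N + 1 : ℕ) : ℝ) * (2 * N + 1) ^ d0 * Real.exp (-(c0 * Real.exp p)) ≤
      Real.exp (-((1 + γ) * Real.exp (2 * d1 * p))) ^ d0
  n_le : C1 * p + 1 ≤ n + p / 2
  l_one : 1 ≤ l
  l_log : Real.log 4 + (C1 * p + 3) ≤ l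
  d_le : 4 * s1 * l ≤ d
  dd_le : b0 + d ≤ dd
  d0_le : b0 + s1 ≤ d0
  D1_le : cD * Real.exp p + b0 * ((1 + γ) * Real.exp (2 * d1 * p)) ≤ 2 * (cD * Real.exp p)
  q_even : Even q
  q_s1 : q * b0 ≤ s1
  R_one : 2 * Real.exp (3 * (γ * (C1 * p + 1))) ≤ Real.exp (8 * γ * (C1 + 1) * p)
  R_two : 4 * Real.exp (2 * (γ * (C1 * p + 1))) ≤ Real.exp (8 * γ * (C1 + 1) * p)
  RP : 2 * (Real.exp (γ * (C1 * p + 1)) *
      H956.KL d (2 * (cD * Real.exp p)) (Real.exp (2 * (γ * (C1 * p + 1))))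
      + Real.exp (γ * (C1 * p + 1)) * ((n + 1 : ℕ) * Real.exp ((1 + γ) * p)))
      ≤ Real.exp (8 * γ * (C1 + 1) * p) * Real.exp p
  log_G : 2 * C1 * p + 5 ≤ Real.exp (3 * d1 * p)
  G_P : 16 * Real.exp (3 * d1 * p) ^ 2 ≤ Real.exp p ^ (2 / 3 : ℝ)
  p_two : 2 ≤ p
  q_lo : Real.exp p ^ (2 / 3 : ℝ) ≤ 2 * (q : ℝ)
  q_hi : 2 * (q : ℝ) ≤ 8 * Real.exp p ^ (2 / 3 : ℝ)
  last : (2 * Real.exp 3 * Real.exp a0) ^ 2 *
      (1440 * Real.exp (3 * d1 * p) * Real.exp (8 * γ * (C1 + 1) * p) ^ 2 *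
        Real.exp p ^ (1 - 1 / (12 * (C1 + 1)))) ≤ Real.exp ((1 - 1 / (24 * C1)) * p)

/-- existence of the numbers -/
def PNumEx : Prop := ∀ C1 : ℝ, 4 ≤ C1 → ∃ k0 : ℝ, 0 < k0 ∧ ∀ γ d1 : ℝ, 0 < γ → γ ≤ k0 →
  0 < d1 → d1 ≤ k0 → ∀ a0 : ℝ, 0 ≤ a0 → ∀ θ c0 cD : ℝ, 0 < θ → 0 < c0 → 0 < cD →
  cD ≤ k0 * (γ * θ) → ∃ p0 : ℝ, ∀ p : ℝ, p0 ≤ p →
    ∃ b0 s1 d0 dd d l q n : ℕ, PNum p C1 γ a0 θ c0 cD d1 b0 s1 d0 dd d l q n

theorem ph_of_num (H : PNumEx) : PHof := by
  intro C1 hC1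
  obtain ⟨k0, hk0, H⟩ := H C1 hC1
  refine ⟨k0, hk0, ?_⟩
  intro γ d1 hγ hγ' hd1 hd1' a0 ha0 θ c0 cD hθ hc0 hcD hcD'
  obtain ⟨p0, H⟩ := H γ d1 hγ hγ' hd1 hd1' a0 ha0 θ c0 cD hθ hc0 hcD hcD'
  refine ⟨p0, ?_⟩
  intro p hp kap G CK ι _ _ V _ _ S ℓ es lam u mu h hone hall hS hcard Hi hHi hes
  obtain ⟨b0, s1, d0, dd, d, l, q, n, N⟩ := H p hp
  have hp0 := N.p_pos
  have hY : 0 ≤ C1 * p + 1 := by positivity
  have hP1 : 1 ≤ Real.exp p := Real.one_le_exp hp0
  have hcι : (Fintype.card ι : ℝ) ≤ Real.exp (C1 * p + 3) + 1 := by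
    have h1 : (univ : Finset ι).card ≤ S.card + (univ \ S).card := by
      rw [← card_sdiff_add_card_inter univ S, univ_inter]
      omega
    have h2 : Fintype.card ι ≤ S.card + 1 := by
      rw [← card_univ]
      omega
    have h3 : (Fintype.card ι : ℝ) ≤ S.card + 1 := by exact_mod_cast h2
    linarith
  have h2 := h2_plaw h (Y := C1 * p + 1) (L := Real.exp (2 * d1 * p))
    (fun i hi => (hS i hi).1.trans (hS i hi).2) hY (Real.exp_pos _).le hall hone ha0 hγ.le hcD.le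
    (d0 := d0) (dd := dd) N.len0 N.lend (N.small _ hcι) hHi (n := n) hes
    (fun i hi => (hS i (hHi hi)).2.trans N.n_le)
  have hHc : (Hi.card : ℝ) ≤ Real.exp (C1 * p + 3) :=
    le_trans (by exact_mod_cast card_le_card hHi) hcard
  have hsum : ((∑ i ∈ Hi, Fintype.card (V i) : ℕ) : ℝ) ≤ Real.exp (2 * C1 * p + 4) := by
    push_cast
    calc ∑ i ∈ Hi, (Fintype.card (V i) : ℝ) ≤ ∑ _i ∈ Hi, Real.exp (C1 * p + 1) := by
          refine sum_le_sum fun i hi => ?_
          rw [pl_card h i]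
          exact Real.exp_le_exp.mpr ((hS i (hHi hi)).1.trans (hS i (hHi hi)).2)
      _ = Hi.card * Real.exp (C1 * p + 1) := by rw [sum_const, nsmul_eq_mul]
      _ ≤ Real.exp (C1 * p + 3) * Real.exp (C1 * p + 1) := by gcongr
      _ = Real.exp (2 * C1 * p + 4) := by rw [← Real.exp_add]; ring_nf
  have hlogn : ∀ {s B : ℝ}, 0 ≤ s → s ≤ Real.exp B → 0 ≤ B → Real.log s ≤ B := by
    intro s B hs hsB hB
    rcases hs.eq_or_lt with h0 | h0
    · rw [← h0, Real.log_zero]; exact hB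
    · exact (Real.log_le_log h0 hsB).trans (Real.log_exp B).le
  have hl4 : 0 ≤ Real.log 4 := Real.log_nonneg (by norm_num)
  have hl3 : Real.log 3 ≤ 2 := by
    have := Real.log_le_sub_one_of_pos (show (0 : ℝ) < 3 by norm_num)
    linarith
  have hl30 : 0 ≤ Real.log 3 := Real.log_nonneg (by norm_num)
  have hexp3 : Real.exp (γ * (C1 * p + 1)) * Real.exp (γ * (C1 * p + 1))
      = Real.exp (2 * (γ * (C1 * p + 1))) := by rw [← Real.exp_add]; ring_nf
  have HN : H104.HNum Hi V d0 (Real.exp (-((1 + γ) * Real.exp (2 * d1 * p))))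
      (Real.exp (-(γ * (C1 * p + 1)))) (γ * (C1 * p + 1)) (Real.exp (γ * (C1 * p + 1)))
      (Real.exp (-(γ * (C1 * p + 1))))
      (Real.exp (γ * (C1 * p + 1)) * ((n + 1 : ℕ) * Real.exp ((1 + γ) * p))) dd
      (cD * Real.exp p) b0 s1 d l q (2 * (cD * Real.exp p)) (Real.exp p)
      (Real.exp (8 * γ * (C1 + 1) * p)) (Real.exp (3 * d1 * p)) (C1 + 1) :=
    { l_one := N.l_one
      l_log := by
        rcases Nat.eq_zero_or_pos Hi.card with h0 | h0
        · rw [h0]; simp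
        · rw [Real.log_mul (by norm_num) (by positivity)]
          have : Real.log Hi.card ≤ C1 * p + 3 := hlogn (by positivity) hHc (by linarith)
          linarith [N.l_log]
      d_le := N.d_le
      dd_le := N.dd_le
      d0_le := N.d0_le
      D1_le := by
        rw [one_div, ← Real.exp_neg, neg_neg, Real.log_exp]
        exact N.D1_le
      q_even := N.q_even
      q_s1 := N.q_s1
      P_one := hP1
      R_one := by
        refine le_trans (le_of_eq ?_) N.R_one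
        rw [Real.exp_neg, div_inv_eq_mul, hexp3, ← Real.exp_add]
        ring_nf
      R_two := by
        refine le_trans (le_of_eq ?_) N.R_two
        rw [Real.exp_neg, div_inv_eq_mul, mul_assoc, hexp3]
      RP := by
        refine le_trans (le_of_eq ?_) N.RP
        rw [hexp3, ← Real.exp_neg, neg_neg]
      G_one := Real.one_le_exp (by positivity)
      C1_one := by linarith
      b0_G := by
        rw [N.b0_eq]
        exact Nat.floor_le (Real.exp_pos _).le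
      log_G := (hlogn (Nat.cast_nonneg _) hsum (by positivity)).trans (by linarith [N.log_G])
      card_G := by
        rcases Nat.eq_zero_or_pos Hi.card with h0 | h0
        · rw [h0]; simpa using (Real.exp_pos _).le
        · rw [Real.log_mul (by norm_num) (by positivity)]
          have h5 : Real.log Hi.card ≤ C1 * p + 3 := hlogn (by positivity) hHc (by linarith)
          have h6 := N.log_G
          have h7 : 0 ≤ C1 * p := by positivity
          linarith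
      card_P := by
        refine hsum.trans ?_
        rw [← Real.exp_mul]
        refine Real.exp_le_exp.mpr ?_
        linarith [N.p_two]
      G_P := N.G_P
      q_lo := N.q_lo
      q_hi := N.q_hi }
  have h3 := H104.PH_all h2 HN
  rw [N.b0_eq] at h3
  intro A e hAe w
  refine (h3 A e hAe w).trans ?_
  refine mul_le_mul_of_nonneg_left ?_ (prod_nonneg fun i _ => by positivity)
  refine pow_le_pow_left₀ ?_ N.last e
  have := Real.rpow_nonneg (Real.exp_pos p).le (1 - 1 / (12 * (C1 + 1)))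
  positivity

/-- the number of sites in the frame of the scales -/
theorem scl_card {J : Type*} {Q : Prm} {K0 : ℕ} {S : Finset ι} {ℓ es : ι → ℝ} {sc : ι → J}
    {sn : J → ℕ} {ell : J → ℝ} (H : Scl Q K0 S ℓ es sc sn ell) (h0 : 0 ≤ Q.C1 * Q.p + 1) :
    (S.card : ℝ) ≤ Real.exp (Q.C1 * Q.p + 2) := by
  have hl2 : 0 < Real.log 2 := Real.log_pos (by norm_num)
  obtain ⟨N, hN⟩ : ∃ N : ℕ, N = ⌊(Q.C1 * Q.p + 1) / Real.log 2⌋₊ := ⟨_, rfl⟩
  have hNle : N * Real.log 2 ≤ Q.C1 * Q.p + 1 := by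
    have h1 := Nat.floor_le (div_nonneg h0 hl2.le)
    rw [← hN, le_div_iff₀ hl2] at h1
    exact h1
  have h1 : S ⊆ (range (N + 1)).biUnion fun n : ℕ => S.filter fun i => es i = n * Real.log 2 := by
    intro i hi
    rw [mem_biUnion]
    refine ⟨sn (sc i), ?_, ?_⟩
    · have h2 := H.top (sc i)
      rw [H.ell1, ← le_div_iff₀ hl2] at h2
      have h3 := Nat.le_floor h2
      rw [← hN] at h3
      exact mem_range.mpr (by omega)
    · rw [mem_filter]
      exact ⟨hi, by rw [H.es1 i hi, H.ell1]⟩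
  have h2 : (S.card : ℝ) ≤ ∑ n ∈ range (N + 1), (2 : ℝ) ^ n := by
    have h3 : (S.card : ℝ) ≤ ∑ n ∈ range (N + 1),
        ((S.filter fun i => es i = n * Real.log 2).card : ℝ) := by
      have := (card_le_card h1).trans card_biUnion_le
      exact_mod_cast this
    refine h3.trans (sum_le_sum fun n _ => (H.card _).trans (le_of_eq ?_))
    rw [Real.exp_nat_mul, Real.exp_log (by norm_num)]
  have h4 : ∑ n ∈ range (N + 1), (2 : ℝ) ^ n ≤ 2 ^ (N + 1) := by
    rw [geom_sum_eq (by norm_num)]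
    norm_num
  have h5 : (2 : ℝ) ^ (N + 1) ≤ Real.exp (Q.C1 * Q.p + 2) := by
    have h6 : (2 : ℝ) ^ (N + 1) = Real.exp ((N + 1 : ℕ) * Real.log 2) := by
      rw [Real.exp_nat_mul, Real.exp_log (by norm_num)]
    rw [h6]
    refine Real.exp_le_exp.mpr ?_
    push_cast
    have h7 : Real.log 2 ≤ 1 := by
      have := Real.log_le_sub_one_of_pos (show (0 : ℝ) < 2 by norm_num)
      linarith
    linarith
  exact h2.trans (h4.trans h5)

end Vale.Agent.P042.H386
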