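import Vale.Agent.P042.H482.OBof
import Vale.Agent.P042.H383.RewR
import Vale.Agent.P042.H74.AnW

set_option autoImplicit false

namespace Vale.Agent.P042.H386

open Finset Polynomial Vale.Agent.P042.H74 Vale.Agent.P042.SS Vale.Agent.P042.H954
open Vale.Agent.P042.H599 (cm Law klu)
open Vale.Agent.P042.H383 (omg supp MaxI miss)

set_option linter.unusedSectionVars false

theorem perm_card {p q1 : ℕ} {z0 : ℤ} (hp : p.Prime) (hq : ¬ p ∣ q1) (P : ℤ → Prop)
    [DecidablePred P]
    (hP : ∀ s t : ℤ, (p : ℤ) ∣ t - s → (P t ↔ P s)) :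
    ((range p).filter (fun z : ℕ => P ((q1 : ℤ) * z + z0))).card =
      ((range p).filter (fun z : ℕ => P (z : ℤ))).card := by
  have h1 := sum_perm hp.pos (fun s : ℤ => if P s then (1 : ℝ) else 0)
    (fun s t h => by simp only [hP s t h]) (fun z => (q1 : ℤ) * z + z0) (by
      intro i hi j hj h
      have h2 : (p : ℤ) ∣ (q1 : ℤ) * ((i : ℤ) - j) := by
        have : ((q1 : ℤ) * i + z0) - ((q1 : ℤ) * j + z0) = (q1 : ℤ) * ((i : ℤ) - j) := by ring
        rwa [this] at h
      have hpp : Prime (p : ℤ) := Nat.prime_iff_prime_int.mp hp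
      rcases hpp.dvd_or_dvd h2 with h3 | h3
      · exact absurd (by exact_mod_cast h3) hq
      · have h4 : (j : ℤ) % p = (i : ℤ) % p := Int.modEq_iff_dvd.mpr h3
        rw [Int.emod_eq_of_lt (a := (i : ℤ)) (by omega) (by exact_mod_cast hi),
          Int.emod_eq_of_lt (a := (j : ℤ)) (by omega) (by exact_mod_cast hj)] at h4
        exact_mod_cast h4.symm)
  have e1 : ∀ (Q : ℕ → Prop) [DecidablePred Q], ∑ z ∈ range p, (if Q z then (1 : ℝ) else 0)
      = (((range p).filter Q).card : ℝ) := by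
    intro Q _
    rw [card_filter]
    push_cast
    rfl
  have e2 := e1 (fun z : ℕ => P ((q1 : ℤ) * z + z0))
  have e3 := e1 (fun z : ℕ => P (z : ℤ))
  have h2 : ((((range p).filter (fun z : ℕ => P ((q1 : ℤ) * z + z0))).card : ℕ) : ℝ)
      = (((range p).filter (fun z : ℕ => P (z : ℤ))).card : ℝ) := by
    rw [← e2, ← e3]
    exact h1
  exact_mod_cast h2

theorem kN_fer {f : ℤ[X]} {p q1 : ℕ} {z0 : ℤ} (hp : p.Prime) (hq : ¬ p ∣ q1) (t : ℤ) :
    kN (fer f q1 z0) p t = kN f p t ∧ dns (fer f q1 z0) p = dns f p := by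
  have hpp : Prime (p : ℤ) := Nat.prime_iff_prime_int.mp hp
  have hder : ∀ z : ℤ, ((p : ℤ) ∣ (derivative (fer f q1 z0)).eval z ↔
      (p : ℤ) ∣ (derivative f).eval ((q1 : ℤ) * z + z0)) := by
    intro z
    rw [deriv_fer_eval]
    constructor
    · intro h
      rcases hpp.dvd_or_dvd h with h3 | h3
      · exact absurd (by exact_mod_cast h3) hq
      · exact h3
    · exact fun h => Dvd.dvd.mul_left h _
  have hper : ∀ g : ℤ[X], ∀ s t : ℤ, (p : ℤ) ∣ t - s → ((p : ℤ) ∣ g.eval t ↔ (p : ℤ) ∣ g.eval s) := by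
    intro g s t h
    have h1 : (p : ℤ) ∣ g.eval t - g.eval s := h.trans (sub_dvd_eval_sub _ _ g)
    exact (Int.dvd_iff_dvd_of_dvd_sub h1)
  have hd : dns (fer f q1 z0) p = dns f p := by
    unfold dns
    have h1 := perm_card (z0 := z0) hp hq (fun s => ¬ (p : ℤ) ∣ (derivative f).eval s)
      (fun s t h => not_congr (hper _ s t h))
    rw [← h1]
    simp only [hder]
  refine ⟨?_, hd⟩
  unfold kN
  rw [hd]
  have h1 := perm_card (z0 := z0) hp hq (fun s => ¬ (p : ℤ) ∣ (derivative f).eval s ∧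
      (p : ℤ) ∣ f.eval s - t) (fun s s' h => by
        have e1 : ∀ x : ℤ, f.eval x - t = (f - C t).eval x := fun x => by simp
        rw [e1, e1]
        exact and_congr (not_congr (hper _ s s' h)) (hper _ s s' h))
  rw [← h1]
  simp only [hder, fer_eval]

end Vale.Agent.P042.H386
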