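import Vale.Agent.P042.H386.K1

set_option autoImplicit false

namespace Vale.Agent.P042.H386

open Finset Vale.Agent.P042.SS Vale.Agent.P042.H954

set_option linter.unusedSectionVars false

/-- relative entropy with respect to the uniform law -/
noncomputable def kLu {X : Type*} [Fintype X] (w : X → ℝ) : ℝ :=
  ∑ x, w x * Real.log ((Fintype.card X : ℝ) * w x)

/-- one prime of `W`: reference law `w`, kernel `k`, loss `z = p ^ α` -/
structure WP {X : Type*} [Fintype X] (w : X → ℝ) (k : X → X → ℝ) (ρ B z : ℝ) : Prop where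
  w0 : ∀ x, 0 ≤ w x
  w1 : ∑ x, w x = 1
  sup : ∀ x, (Fintype.card X : ℝ) * w x ≤ z
  row : ∀ x, w x ≠ 0 → z⁻¹ ≤ ∑ y, w y * (1 + k x y)
  col : ∀ y, w y ≠ 0 → z⁻¹ ≤ ∑ x, w x * (1 + k x y)
  ck : ∀ x, ∑ y, k x y = 0
  ck' : ∀ y, ∑ x, k x y = 0
  op : OpB (fun _ : X => (Fintype.card X : ℝ)⁻¹) (fun _ : X => (Fintype.card X : ℝ)⁻¹) k ρ
  lo : ∀ x y, -1 ≤ k x y
  up : ∀ x y, 1 + k x y ≤ B

/-- one prime of `V`: reference law uniform -/
structure VP {X : Type*} [Fintype X] (k : X → X → ℝ) (ρ B : ℝ) : Prop where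
  ck : ∀ x, ∑ y, k x y = 0
  ck' : ∀ y, ∑ x, k x y = 0
  op : OpB (fun _ : X => (Fintype.card X : ℝ)⁻¹) (fun _ : X => (Fintype.card X : ℝ)⁻¹) k ρ
  lo : ∀ x y, -1 ≤ k x y
  up : ∀ x y, 1 + k x y ≤ B

/-- output of one prime of `W`: tilts and kernel -/
structure OutW {X : Type*} [Fintype X] (w : X → ℝ) (k K : X → X → ℝ) (e e' : X → ℝ)
    (p α : ℝ) : Prop where
  tilt : ∀ x y, 1 + K x y = (1 + e x) * (1 + k x y) * (1 + e' y)
  pos : ∀ x, 0 < 1 + e x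
  pos' : ∀ y, 0 < 1 + e' y
  sup : ∀ x, |e x| ≤ p ^ (2 * α)
  sup' : ∀ y, |e' y| ≤ p ^ (2 * α)
  nme : nm (fun _ : X => (Fintype.card X : ℝ)⁻¹) e ≤ p ^ (7 * α - 1 / 2) * √(kLu w)
  nme' : nm (fun _ : X => (Fintype.card X : ℝ)⁻¹) e' ≤ p ^ (7 * α - 1 / 2) * √(kLu w)
  op : OpB w w K (p ^ (7 * α - 1 / 2))
  mean : ∑ x, ∑ y, w x * w y * K x y = 0
  lo : ∀ x y, -1 ≤ K x y
  up : ∀ x y, K x y ≤ p ^ (3 * α)

section one

variable {X : Type*} [Fintype X] {w : X → ℝ} {k : X → X → ℝ} {ρ B z : ℝ}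

theorem WP.card_pos (h : WP w k ρ B z) : 0 < (Fintype.card X : ℝ) := by
  have h0 : 0 < Fintype.card X := by
    rcases Nat.eq_zero_or_pos (Fintype.card X) with h1 | h1
    · have : IsEmpty X := Fintype.card_eq_zero_iff.mp h1
      have := h.w1
      simp at this
    · exact h1
  exact_mod_cast h0

theorem WP.z_one (h : WP w k ρ B z) : 1 ≤ z := by
  have h1 : ∑ x, (Fintype.card X : ℝ) * w x ≤ ∑ _x : X, z := sum_le_sum fun x _ => h.sup x
  rw [← mul_sum, h.w1, mul_one, sum_const, nsmul_eq_mul, card_univ] at h1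
  have h2 := h.card_pos
  by_contra h3
  push Not at h3
  nlinarith

/-- `χ² ≤ 2 z · entropy` -/
theorem WP.chi (h : WP w k ρ B z) :
    ∑ x, (Fintype.card X : ℝ)⁻¹ * (w x / (Fintype.card X : ℝ)⁻¹ - 1) ^ 2 ≤ 2 * z * kLu w := by
  have hc := h.card_pos
  have h1 : ∀ x ∈ univ, (Fintype.card X : ℝ)⁻¹ * (w x / (Fintype.card X : ℝ)⁻¹ - 1) ^ 2 ≤
      2 * z * (w x * Real.log ((Fintype.card X : ℝ) * w x) - w x + (Fintype.card X : ℝ)⁻¹) := by
    intro x _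
    have h2 := KL2.ent_pt (P := (Fintype.card X : ℝ) * w x) (Q := 1) (K := z)
      (mul_nonneg hc.le (h.w0 x)) zero_le_one (h.sup x) h.z_one
      (fun h3 => absurd h3 one_ne_zero)
    rw [div_one] at h2
    have h3 := mul_le_mul_of_nonneg_left h2 (inv_pos.2 hc).le
    have e1 : w x / (Fintype.card X : ℝ)⁻¹ = (Fintype.card X : ℝ) * w x := by
      rw [div_inv_eq_mul, mul_comm]
    rw [e1]
    refine h3.trans (le_of_eq ?_)
    field_simp
  refine (sum_le_sum h1).trans (le_of_eq ?_)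
  rw [← mul_sum, sum_add_distrib, sum_sub_distrib, h.w1, sum_const, card_univ,
    nsmul_eq_mul, mul_inv_cancel₀ hc.ne']
  unfold kLu
  ring

theorem WP.kLu_nonneg (h : WP w k ρ B z) : 0 ≤ kLu w := by
  have h1 := h.chi
  have h2 : 0 ≤ ∑ x, (Fintype.card X : ℝ)⁻¹ * (w x / (Fintype.card X : ℝ)⁻¹ - 1) ^ 2 :=
    sum_nonneg fun x _ => mul_nonneg (inv_nonneg.2 h.card_pos.le) (sq_nonneg _)
  have h3 := h.z_one
  have h4 : 0 ≤ 2 * z * kLu w := h2.trans h1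
  by_contra h5
  push Not at h5
  nlinarith

theorem WP.kLu_le (h : WP w k ρ B z) : kLu w ≤ z := by
  have hz := h.z_one
  have h1 : kLu w ≤ ∑ x, w x * z := by
    unfold kLu
    refine sum_le_sum fun x _ => mul_le_mul_of_nonneg_left ?_ (h.w0 x)
    rcases (h.w0 x).eq_or_lt with h2 | h2
    · rw [← h2, mul_zero, Real.log_zero]; linarith
    · have h3 := Real.log_le_sub_one_of_pos (mul_pos h.card_pos h2)
      linarith [h.sup x]
  rw [← sum_mul, h.w1, one_mul] at h1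
  exact h1

/-- the data of 954's one-body step -/
theorem WP.kd (h : WP w k ρ B z) (hρ : 0 ≤ ρ) (hs : 16 * ρ * z ^ 6 ≤ 1) :
    KD (fun _ : X => (Fintype.card X : ℝ)⁻¹) (fun _ : X => (Fintype.card X : ℝ)⁻¹)
      w w k ρ z z⁻¹ √(2 * z * kLu w) where
  hu := fun _ => inv_nonneg.2 h.card_pos.le
  hu' := fun _ => inv_nonneg.2 h.card_pos.le
  hν := h.w0
  hν' := h.w0
  su := by rw [sum_const, card_univ, nsmul_eq_mul, mul_inv_cancel₀ h.card_pos.ne']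
  su' := by rw [sum_const, card_univ, nsmul_eq_mul, mul_inv_cancel₀ h.card_pos.ne']
  sν := h.w1
  sν' := h.w1
  dν := fun x => by
    rw [← div_eq_mul_inv, le_div_iff₀ h.card_pos, mul_comm]
    exact h.sup x
  dν' := fun x => by
    rw [← div_eq_mul_inv, le_div_iff₀ h.card_pos, mul_comm]
    exact h.sup x
  ck := fun x => by rw [← mul_sum, h.ck, mul_zero]
  ck' := fun y => by rw [← mul_sum, h.ck', mul_zero]
  op := h.op
  hH := Real.sqrt_le_sqrt h.chi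
  hH' := Real.sqrt_le_sqrt h.chi
  row := h.row
  row' := h.col
  r0 := inv_pos.2 (by linarith [h.z_one])
  r1 := inv_le_one_of_one_le₀ h.z_one
  D1 := h.z_one
  ρ0 := hρ
  ρ1 := by
    have h1 : 1 ≤ z ^ 6 := one_le_pow₀ h.z_one
    nlinarith
  H0 := Real.sqrt_nonneg _
  small := by
    have hz := h.z_one
    have hz0 : 0 < z := by linarith
    rw [Real.sq_sqrt (mul_nonneg (by positivity) h.kLu_nonneg)]
    have h1 : 8 * ρ * (2 * z * kLu w) * z ^ 2 ≤ 8 * ρ * (2 * z * z) * z ^ 2 := by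
      have := h.kLu_le
      gcongr
    refine h1.trans ?_
    rw [inv_pow, ← one_div, le_div_iff₀ (by positivity)]
    refine le_trans (le_of_eq ?_) hs
    ring

/-- **one prime of `W`**, in terms of `z = p ^ α` and `ρ` -/
theorem WP.out (h : WP w k ρ B z) (hρ : 0 ≤ ρ) (hs : 16 * ρ * z ^ 6 ≤ 1) (hz2 : 2 ≤ z)
    (hB : 0 ≤ B) :
    ∃ (K : X → X → ℝ) (e e' : X → ℝ),
      (∀ x y, 1 + K x y = (1 + e x) * (1 + k x y) * (1 + e' y)) ∧
      (∀ x, 0 < 1 + e x) ∧ (∀ y, 0 < 1 + e' y) ∧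
      (∀ x, |e x| ≤ 2 * z) ∧ (∀ y, |e' y| ≤ 2 * z) ∧
      nm (fun _ : X => (Fintype.card X : ℝ)⁻¹) e ≤ 18 * ρ * z ^ 6 * √(kLu w) ∧
      nm (fun _ : X => (Fintype.card X : ℝ)⁻¹) e' ≤ 18 * ρ * z ^ 6 * √(kLu w) ∧
      OpB w w K (72 * ρ * z ^ 6) ∧
      ∑ x, ∑ y, w x * w y * K x y = 0 ∧
      nm w (fun x => ∑ y, w y * K x y) ≤ 36 * ρ ^ 2 * z ^ 7 * √(kLu w) ∧
      nm w (fun y => ∑ x, w x * K x y) ≤ 36 * ρ ^ 2 * z ^ 7 * √(kLu w) ∧
      (∀ x y, -1 ≤ K x y) ∧ (∀ x y, K x y ≤ 9 * z ^ 2 * B) := by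
  have hz0 : 0 < z := by linarith
  have hk0 := h.kLu_nonneg
  have hkz := h.kLu_le
  obtain ⟨K, e, e', h1, h2, h3, h4, h5, h6, h7, h8, h9, h10, h11⟩ := onebody (h.kd hρ hs)
  rw [inv_inv] at h4 h5 h6 h7 h8 h10 h11
  have hH0 : 0 ≤ √(2 * z * kLu w) := Real.sqrt_nonneg _
  have hHz : √(2 * z * kLu w) ≤ 2 * z := by
    rw [Real.sqrt_le_left (by positivity)]
    nlinarith
  have hHk : √(2 * z * kLu w) ≤ z * √(kLu w) := by
    rw [Real.sqrt_le_left (by positivity), mul_pow, Real.sq_sqrt hk0]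
    nlinarith [mul_nonneg hz0.le hk0]
  obtain ⟨H, hH⟩ : ∃ H, H = √(2 * z * kLu w) := ⟨_, rfl⟩
  rw [← hH] at h6 h7 h8 h10 h11 hH0 hHz hHk
  have n1 : 2 * ρ * H * z + 8 * ρ * H ^ 2 * z ^ 2 * z ^ 2 ≤ 18 * ρ * z ^ 6 * √(kLu w) := by
    have a1 : H * z ≤ H * z ^ 5 := by
      refine mul_le_mul_of_nonneg_left ?_ hH0
      exact le_self_pow₀ (by linarith) (by norm_num)
    have a2 : H ^ 2 * z ^ 2 * z ^ 2 ≤ 2 * (H * z ^ 5) := by
      have : H ^ 2 ≤ H * (2 * z) := by nlinarith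
      have := mul_le_mul_of_nonneg_right this (show 0 ≤ z ^ 4 by positivity)
      nlinarith
    have a3 : H * z ^ 5 ≤ z * √(kLu w) * z ^ 5 := mul_le_mul_of_nonneg_right hHk (by positivity)
    have a4 : 2 * (H * z) + 8 * (H ^ 2 * z ^ 2 * z ^ 2) ≤ 18 * (z * √(kLu w) * z ^ 5) := by
      linarith
    have a5 := mul_le_mul_of_nonneg_left a4 hρ
    linarith
  have n2 : 8 * ρ * z ^ 2 * (1 + H) ^ 2 * z ^ 2 ≤ 72 * ρ * z ^ 6 := by
    have a1 : (1 + H) ^ 2 ≤ (3 * z) ^ 2 := pow_le_pow_left₀ (by linarith) (by linarith) 2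
    have a2 := mul_le_mul_of_nonneg_left a1 (show 0 ≤ 8 * ρ * z ^ 4 by positivity)
    linarith
  have n3 : 4 * ρ ^ 2 * z ^ 2 * H * (1 + H) ^ 2 * z ^ 2 ≤ 36 * ρ ^ 2 * z ^ 7 * √(kLu w) := by
    have a1 : (1 + H) ^ 2 ≤ (3 * z) ^ 2 := pow_le_pow_left₀ (by linarith) (by linarith) 2
    have a2 : H * (1 + H) ^ 2 ≤ (z * √(kLu w)) * (3 * z) ^ 2 :=
      mul_le_mul hHk a1 (by positivity) (by positivity)
    have a3 := mul_le_mul_of_nonneg_left a2 (show 0 ≤ 4 * ρ ^ 2 * z ^ 4 by positivity)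
    linarith
  refine ⟨K, e, e', h1, h2, h3, h4, h5, h6.trans n1, h7.trans n1, ?_, h9, h10.trans n3,
    h11.trans n3, ?_, ?_⟩
  · intro f g
    refine (h8 f g).trans ?_
    exact mul_le_mul_of_nonneg_right (mul_le_mul_of_nonneg_right n2 (nm_nonneg w f))
      (nm_nonneg w g)
  · intro x y
    have a1 := h1 x y
    have a2 : 0 ≤ (1 + e x) * (1 + k x y) * (1 + e' y) :=
      mul_nonneg (mul_nonneg (h2 x).le (by linarith [h.lo x y])) (h3 y).le
    linarith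
  · intro x y
    have a1 := h1 x y
    have b1 : 1 + e x ≤ 3 * z := by have := (abs_le.mp (h4 x)).2; linarith
    have b2 : 1 + e' y ≤ 3 * z := by have := (abs_le.mp (h5 y)).2; linarith
    have b3 : (1 + e x) * (1 + k x y) ≤ 3 * z * B :=
      mul_le_mul b1 (h.up x y) (by linarith [h.lo x y]) (by positivity)
    have b4 : (1 + e x) * (1 + k x y) * (1 + e' y) ≤ 3 * z * B * (3 * z) :=
      mul_le_mul b3 b2 (h3 y).le (by positivity)
    nlinarith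

end one

end Vale.Agent.P042.H386
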