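import Vale.Agent.P042.H386.K2
import Vale.Agent.P042.H482.OBof

set_option autoImplicit false

namespace Vale.Agent.P042.H386

open Finset Vale.Agent.P042.SS Vale.Agent.P042.H954

set_option linter.unusedSectionVars false

theorem rpow_half_sub {p : ℝ} (hp : 0 < p) (α : ℝ) (n : ℕ) :
    p ^ (n * α - 1 / 2) = (p ^ α) ^ n / √p := by
  rw [Real.rpow_sub hp, Real.sqrt_eq_rpow, mul_comm, Real.rpow_mul hp.le, Real.rpow_natCast]

/-- the numbers of one prime -/
theorem num_one (k : ℕ) (hk : 1 ≤ k) (α : ℝ) (hα : 0 < α) (hα1 : α ≤ 1 / 48) :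
    ∃ K0 : ℝ, 1 ≤ K0 ∧ ∀ p : ℝ, K0 ≤ p → 1000 * (k : ℝ) ≤ p ^ α ∧ (p ^ α) ^ 24 ≤ √p := by
  refine ⟨(1000 * (k : ℝ)) ^ (1 / α), ?_, fun p hp => ?_⟩
  · have : (1 : ℝ) ≤ 1000 * k := by
      have : (1 : ℝ) ≤ k := by exact_mod_cast hk
      linarith
    exact Real.one_le_rpow this (by positivity)
  · have hk1 : (1 : ℝ) ≤ k := by exact_mod_cast hk
    have h1 : (1 : ℝ) ≤ (1000 * (k : ℝ)) ^ (1 / α) :=
      Real.one_le_rpow (by linarith) (by positivity)
    have hp1 : 1 ≤ p := h1.trans hp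
    constructor
    · have h2 := Real.rpow_le_rpow (by positivity) hp hα.le
      rw [← Real.rpow_mul (by positivity), one_div, inv_mul_cancel₀ hα.ne', Real.rpow_one] at h2
      exact h2
    · rw [← Real.rpow_natCast, ← Real.rpow_mul (by linarith), Real.sqrt_eq_rpow]
      refine Real.rpow_le_rpow_of_exponent_le hp1 ?_
      push_cast
      linarith

/-- **one prime of `W`** -/
theorem ker_one {k : ℕ} (hk : 1 ≤ k) {α p : ℝ} (hp : 1 ≤ p) (h1 : 1000 * (k : ℝ) ≤ p ^ α)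
    (h2 : (p ^ α) ^ 24 ≤ √p) {X : Type} [Fintype X] {w : X → ℝ} {kk : X → X → ℝ}
    (h : WP w kk (4 * k / √p) (2 * k) (p ^ α)) :
    ∃ (K : X → X → ℝ) (e e' : X → ℝ), OutW w kk K e e' p α ∧
      nm w (fun x => ∑ y, w y * K x y) ≤ p ^ (9 * α - 1) * √(kLu w) ∧
      nm w (fun y => ∑ x, w x * K x y) ≤ p ^ (9 * α - 1) * √(kLu w) := by
  have hp0 : 0 < p := by linarith
  have hs0 : 0 < √p := Real.sqrt_pos.mpr hp0
  have hss : √p ^ 2 = p := Real.sq_sqrt hp0.le
  have hk1 : (1 : ℝ) ≤ k := by exact_mod_cast hk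
  have e7 : p ^ (7 * α - 1 / 2) = (p ^ α) ^ 7 / √p := by
    have := rpow_half_sub hp0 α 7
    exact_mod_cast this
  have e2 : p ^ (2 * α) = (p ^ α) ^ 2 := by
    rw [mul_comm, Real.rpow_mul hp0.le]; exact_mod_cast Real.rpow_natCast _ _
  have e3 : p ^ (3 * α) = (p ^ α) ^ 3 := by
    rw [mul_comm, Real.rpow_mul hp0.le]; exact_mod_cast Real.rpow_natCast _ _
  have e9 : p ^ (9 * α - 1) = (p ^ α) ^ 9 / p := by
    rw [Real.rpow_sub hp0, Real.rpow_one, mul_comm, Real.rpow_mul hp0.le]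
    congr 1
    exact_mod_cast Real.rpow_natCast _ _
  obtain ⟨z, hz⟩ : ∃ z, z = p ^ α := ⟨_, rfl⟩
  rw [← hz] at h1 h2 h e7 e2 e3 e9
  have hz1 : 1000 ≤ z := by nlinarith
  have hz0 : 0 < z := by linarith
  have hk0 : (0 : ℝ) ≤ k := by linarith
  have hzp : ∀ n : ℕ, 1 ≤ z ^ n := fun n => one_le_pow₀ (by linarith)
  have h67 : z ^ 7 ≤ √p := (pow_le_pow_right₀ (by linarith) (by norm_num)).trans h2
  have hs : 16 * (4 * k / √p) * z ^ 6 ≤ 1 := by
    have a1 : 16 * (4 * k / √p) * z ^ 6 = (64 * k) * z ^ 6 / √p := by ring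
    rw [a1, div_le_one hs0]
    refine le_trans ?_ h67
    have : z ^ 7 = z * z ^ 6 := by ring
    rw [this]
    refine mul_le_mul_of_nonneg_right ?_ (by positivity)
    linarith
  obtain ⟨K, e, e', g1, g2, g3, g4, g5, g6, g7, g8, g9, g10, g11, g12, g13⟩ :=
    h.out (by positivity) hs (by linarith) (by positivity)
  have n1 : 18 * (4 * k / √p) * z ^ 6 ≤ z ^ 7 / √p := by
    rw [show 18 * (4 * k / √p) * z ^ 6 = (72 * k) * z ^ 6 / √p by ring]
    refine div_le_div_of_nonneg_right ?_ hs0.le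
    have : z ^ 7 = z * z ^ 6 := by ring
    rw [this]
    refine mul_le_mul_of_nonneg_right ?_ (by positivity)
    linarith
  have n2 : 72 * (4 * k / √p) * z ^ 6 ≤ z ^ 7 / √p := by
    rw [show 72 * (4 * k / √p) * z ^ 6 = (288 * k) * z ^ 6 / √p by ring]
    refine div_le_div_of_nonneg_right ?_ hs0.le
    have : z ^ 7 = z * z ^ 6 := by ring
    rw [this]
    refine mul_le_mul_of_nonneg_right ?_ (by positivity)
    linarith
  have n3 : 36 * (4 * k / √p) ^ 2 * z ^ 7 ≤ z ^ 9 / p := by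
    rw [div_pow, hss, show 36 * ((4 * (k : ℝ)) ^ 2 / p) * z ^ 7 = (576 * (k : ℝ) ^ 2) * z ^ 7 / p by
      ring]
    refine div_le_div_of_nonneg_right ?_ hp0.le
    have : z ^ 9 = z ^ 2 * z ^ 7 := by ring
    rw [this]
    refine mul_le_mul_of_nonneg_right ?_ (by positivity)
    nlinarith
  have n4 : 2 * z ≤ z ^ 2 := by nlinarith
  have hsq := Real.sqrt_nonneg (kLu w)
  refine ⟨K, e, e', ⟨g1, g2, g3, ?_, ?_, ?_, ?_, ?_, g9, g12, ?_⟩, ?_, ?_⟩
  · intro x; rw [e2]; exact (g4 x).trans n4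
  · intro x; rw [e2]; exact (g5 x).trans n4
  · rw [e7]; exact g6.trans (mul_le_mul_of_nonneg_right n1 hsq)
  · rw [e7]; exact g7.trans (mul_le_mul_of_nonneg_right n1 hsq)
  · intro f g
    rw [e7]
    refine (g8 f g).trans ?_
    exact mul_le_mul_of_nonneg_right (mul_le_mul_of_nonneg_right n2 (nm_nonneg w f))
      (nm_nonneg w g)
  · intro x y
    rw [e3]
    refine (g13 x y).trans ?_
    have : z ^ 3 = z ^ 2 * z := by ring
    rw [this, show 9 * z ^ 2 * (2 * (k : ℝ)) = z ^ 2 * (18 * k) by ring]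
    refine mul_le_mul_of_nonneg_left ?_ (by positivity)
    linarith
  · rw [e9]; exact g10.trans (mul_le_mul_of_nonneg_right n3 hsq)
  · rw [e9]; exact g11.trans (mul_le_mul_of_nonneg_right n3 hsq)

/-- the tail of the series -/
theorem tail_small : ∃ N : ℕ, ∀ (ι : Type) [Fintype ι] (prm : ι → ℕ), Function.Injective prm →
    (∀ i, N ≤ prm i) → ∑ i, ((prm i : ℝ)) ^ (-(5 / 4 : ℝ)) ≤ 1 / 32 := by
  have h1 : Summable (fun n : ℕ => ((n : ℝ)) ^ (-(5 / 4 : ℝ))) := by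
    rw [Real.summable_nat_rpow]
    norm_num
  obtain ⟨s, hs⟩ := summable_iff_vanishing_norm.1 h1 (1 / 32) (by norm_num)
  refine ⟨s.sup id + 1, fun ι _ prm hinj hN => ?_⟩
  classical
  have h2 := hs (univ.image prm) (by
    rw [Finset.disjoint_left]
    intro n hn hns
    obtain ⟨i, -, rfl⟩ := mem_image.1 hn
    have h3 : prm i ≤ s.sup id := Finset.le_sup (f := id) hns
    have h4 := hN i
    omega)
  rw [sum_image fun i _ j _ h => hinj h, Real.norm_eq_abs] at h2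
  exact (le_abs_self _).trans h2.le

/-- **all primes at once**: `isW i` = the prime carries the reference law of the state and a tilted
kernel; otherwise the reference is uniform and the kernel is the original one -/
theorem ker_F (k : ℕ) (hk : 1 ≤ k) (α : ℝ) (hα : 0 < α) (hα1 : α ≤ 1 / 48) :
    ∃ K0 : ℝ, 1 ≤ K0 ∧ ∀ (ι : Type) [Fintype ι] [DecidableEq ι] (prm : ι → ℕ) (V : ι → Type)
      [∀ i, Fintype (V i)] [∀ i, DecidableEq (V i)] (isW : ι → Prop)
      (w : ∀ i, V i → ℝ) (kk : ∀ i, V i → V i → ℝ),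
      Function.Injective prm → (∀ i, K0 ≤ prm i) → (∀ i, Fintype.card (V i) = prm i) →
      (∀ i, isW i → WP (w i) (kk i) (4 * k / √(prm i)) (2 * k) ((prm i : ℝ) ^ α)) →
      (∀ i, ¬ isW i → VP (kk i) (4 * k / √(prm i)) (2 * k) ∧
        w i = fun _ => (Fintype.card (V i) : ℝ)⁻¹) →
      ∃ (K : ∀ i, V i → V i → ℝ) (e e' : ∀ i, V i → ℝ) (u u' : ∀ i, V i → ℝ)
        (s : ∀ i, V i → V i → ℝ) (rho ee : ι → ℝ),
        (∀ i, isW i → OutW (w i) (kk i) (K i) (e i) (e' i) (prm i) α) ∧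
        (∀ i, ¬ isW i → K i = kk i ∧ e i = 0 ∧ e' i = 0 ∧ u i = 0 ∧ u' i = 0 ∧ s i = kk i ∧
          ee i = 0) ∧
        H365.OB w K (fun _ => 0) u u' s rho ee ∧
        (∀ i, rho i = (prm i : ℝ) ^ (7 * α - 1 / 2)) ∧
        (∀ i, ee i ≤ (prm i : ℝ) ^ (-(5 / 4 : ℝ)) * min 1 (kLu (w i))) ∧
        ∑ i, ee i ≤ 1 / 32 := by
  classical
  obtain ⟨K0, hK0, hnum⟩ := num_one k hk α hα hα1
  obtain ⟨N, hN⟩ := tail_small
  refine ⟨max K0 N, hK0.trans (le_max_left _ _), fun ι _ _ prm V _ _ isW w kk hinj hp hcard hW hV =>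
    ?_⟩
  have hp1 : ∀ i, (1 : ℝ) ≤ prm i := fun i => hK0.trans ((le_max_left _ _).trans (hp i))
  have hp0 : ∀ i, (0 : ℝ) < prm i := fun i => lt_of_lt_of_le one_pos (hp1 i)
  have hs0 : ∀ i, 0 < √(prm i : ℝ) := fun i => Real.sqrt_pos.mpr (hp0 i)
  have hz1 := fun i => (hnum (prm i) ((le_max_left _ _).trans (hp i))).1
  have hz24 := fun i => (hnum (prm i) ((le_max_left _ _).trans (hp i))).2
  have hk1 : (1 : ℝ) ≤ k := by exact_mod_cast hk
  have hzz : ∀ i, (1000 : ℝ) ≤ (prm i : ℝ) ^ α := fun i => by have := hz1 i; nlinarith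
  have key : ∀ i, ∃ (K : V i → V i → ℝ) (e e' : V i → ℝ),
      (isW i → OutW (w i) (kk i) K e e' (prm i) α ∧
        nm (w i) (fun x => ∑ y, w i y * K x y) ≤ (prm i : ℝ) ^ (9 * α - 1) * √(kLu (w i)) ∧
        nm (w i) (fun y => ∑ x, w i x * K x y) ≤ (prm i : ℝ) ^ (9 * α - 1) * √(kLu (w i))) ∧
      (¬ isW i → K = kk i ∧ e = 0 ∧ e' = 0) := by
    intro i
    by_cases h : isW i
    · obtain ⟨K, e, e', h1, h2, h3⟩ := ker_one hk (hp1 i) (hz1 i) (hz24 i) (hW i h)
      exact ⟨K, e, e', fun _ => ⟨h1, h2, h3⟩, fun h' => absurd h h'⟩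
    · exact ⟨kk i, 0, 0, fun h' => absurd h' h, fun _ => ⟨rfl, rfl, rfl⟩⟩
  choose K e e' hKW hKV using key
  have e7 : ∀ i, (prm i : ℝ) ^ (7 * α - 1 / 2) = ((prm i : ℝ) ^ α) ^ 7 / √(prm i) := fun i => by
    have := rpow_half_sub (hp0 i) α 7
    exact_mod_cast this
  have e9 : ∀ i, (prm i : ℝ) ^ (9 * α - 1) = ((prm i : ℝ) ^ α) ^ 9 / prm i := fun i => by
    rw [Real.rpow_sub (hp0 i), Real.rpow_one, mul_comm, Real.rpow_mul (hp0 i).le]
    congr 1
    exact_mod_cast Real.rpow_natCast _ _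
  have hwV : ∀ i, ¬ isW i → (∀ x, ∑ y, w i y * kk i x y = 0) ∧
      (∀ y, ∑ x, w i x * kk i x y = 0) := by
    intro i h
    obtain ⟨h1, h2⟩ := hV i h
    rw [h2]
    refine ⟨fun x => ?_, fun y => ?_⟩
    · rw [← mul_sum, h1.ck, mul_zero]
    · rw [← mul_sum, h1.ck', mul_zero]
  have hcp : ∀ i, (0 : ℝ) < Fintype.card (V i) := fun i => by rw [hcard i]; exact hp0 i
  have hw0 : ∀ i x, 0 ≤ w i x := by
    intro i x
    by_cases h : isW i
    · exact (hW i h).w0 x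
    · rw [(hV i h).2]
      exact inv_nonneg.2 (hcp i).le
  have hw1 : ∀ i, ∑ x, w i x = 1 := by
    intro i
    by_cases h : isW i
    · exact (hW i h).w1
    · rw [(hV i h).2, sum_const, card_univ, nsmul_eq_mul, mul_inv_cancel₀ (hcp i).ne']
  have hR : ∀ i, 0 < (prm i : ℝ) ^ (7 * α - 1 / 2) := fun i => Real.rpow_pos_of_pos (hp0 i) _
  obtain ⟨b, hb⟩ : ∃ b : ι → ℝ, b = fun i =>
    if isW i then (prm i : ℝ) ^ (9 * α - 1) * √(kLu (w i)) else 0 := ⟨_, rfl⟩
  have hop : ∀ i, OpB (w i) (w i) (K i) ((prm i : ℝ) ^ (7 * α - 1 / 2)) := by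
    intro i
    by_cases h : isW i
    · exact (hKW i h).1.op
    · rw [(hKV i h).1, (hV i h).2]
      intro f g
      refine ((hV i h).1.op f g).trans ?_
      refine mul_le_mul_of_nonneg_right (mul_le_mul_of_nonneg_right ?_ (nm_nonneg _ f))
        (nm_nonneg _ g)
      rw [e7]
      refine div_le_div_of_nonneg_right ?_ (hs0 i).le
      have h3 : (prm i : ℝ) ^ α ≤ ((prm i : ℝ) ^ α) ^ 7 :=
        le_self_pow₀ (by linarith [hzz i]) (by norm_num)
      linarith [hz1 i]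
  have hmean : ∀ i, ∑ x, ∑ y, w i x * w i y * K i x y = 0 := by
    intro i
    by_cases h : isW i
    · exact (hKW i h).1.mean
    · rw [(hKV i h).1]
      refine sum_eq_zero fun x _ => ?_
      have h1 : ∀ y, w i x * w i y * kk i x y = w i x * (w i y * kk i x y) := fun y => by ring
      rw [sum_congr rfl fun y _ => h1 y, ← mul_sum, (hwV i h).1, mul_zero]
  have hz : ∀ i (f : V i → ℝ), (∀ x, f x = 0) → nm (w i) f ≤ 0 := by
    intro i f hf
    have : f = fun _ => 0 := funext hf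
    rw [this]
    unfold nm
    simp
  have hrow : ∀ i, nm (w i) (fun x => ∑ y, w i y * K i x y) ≤ b i := by
    intro i
    rw [hb]
    dsimp only
    split_ifs with h
    · exact (hKW i h).2.1
    · refine hz i _ fun x => ?_
      rw [(hKV i h).1]
      exact (hwV i h).1 x
  have hcol : ∀ i, nm (w i) (fun y => ∑ x, w i x * K i x y) ≤ b i := by
    intro i
    rw [hb]
    dsimp only
    split_ifs with h
    · exact (hKW i h).2.2
    · refine hz i _ fun x => ?_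
      rw [(hKV i h).1]
      exact (hwV i h).2 x
  have hOB := H482.OB_of (w := w) (K := K) (R := fun i => (prm i : ℝ) ^ (7 * α - 1 / 2)) (b := b)
    hw0 hw1 hR hop hmean hrow hcol
  have hee : ∀ i, b i ^ 2 / (prm i : ℝ) ^ (7 * α - 1 / 2) ≤
      (prm i : ℝ) ^ (-(5 / 4 : ℝ)) * min 1 (kLu (w i)) := by
    intro i
    rw [hb]
    dsimp only
    split_ifs with h
    · have k0 := (hW i h).kLu_nonneg
      have kz := (hW i h).kLu_le
      have z0 : 0 < (prm i : ℝ) ^ α := by linarith [hzz i]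
      have s0 := hs0 i
      have ss : √(prm i : ℝ) ^ 2 = prm i := Real.sq_sqrt (hp0 i).le
      have e54 : (prm i : ℝ) ^ (-(5 / 4 : ℝ)) = (prm i : ℝ) ^ (1 / 4 : ℝ) / √(prm i) ^ 3 := by
        have : √(prm i : ℝ) ^ 3 = (prm i : ℝ) ^ (3 / 2 : ℝ) := by
          rw [Real.sqrt_eq_rpow, ← Real.rpow_natCast, ← Real.rpow_mul (hp0 i).le]
          norm_num
        rw [this, ← Real.rpow_sub (hp0 i)]
        norm_num
      have h12 : ((prm i : ℝ) ^ α) ^ 12 ≤ (prm i : ℝ) ^ (1 / 4 : ℝ) := by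
        have h1 : (((prm i : ℝ) ^ α) ^ 12) ^ 2 ≤ ((prm i : ℝ) ^ (1 / 4 : ℝ)) ^ 2 := by
          rw [← pow_mul, ← Real.rpow_natCast ((prm i : ℝ) ^ (1 / 4 : ℝ)),
            ← Real.rpow_mul (hp0 i).le]
          refine (hz24 i).trans (le_of_eq ?_)
          rw [Real.sqrt_eq_rpow]
          norm_num
        exact le_of_sq_le_sq h1 (Real.rpow_nonneg (hp0 i).le _)
      rw [e7, e9, mul_pow, Real.sq_sqrt k0, div_pow]
      have e1 : (((prm i : ℝ) ^ α) ^ 9) ^ 2 / (prm i : ℝ) ^ 2 * kLu (w i) /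
          (((prm i : ℝ) ^ α) ^ 7 / √(prm i)) =
          ((prm i : ℝ) ^ α) ^ 11 * kLu (w i) / √(prm i) ^ 3 := by
        have : (prm i : ℝ) ^ 2 = √(prm i) * √(prm i) ^ 3 := by
          have h9 : √(prm i : ℝ) * √(prm i) ^ 3 = (√(prm i : ℝ) ^ 2) ^ 2 := by ring
          rw [h9, ss]
        rw [this]
        field_simp
      rw [e1, e54, div_mul_eq_mul_div]
      refine div_le_div_of_nonneg_right ?_ (by positivity)
      obtain ⟨z, hz'⟩ : ∃ z, z = (prm i : ℝ) ^ α := ⟨_, rfl⟩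
      rw [← hz'] at kz z0 h12 ⊢
      have z1 : 1 ≤ z := by rw [hz']; linarith [hzz i]
      rcases le_total 1 (kLu (w i)) with h5 | h5
      · rw [min_eq_left h5, mul_one]
        refine le_trans ?_ h12
        have : z ^ 12 = z ^ 11 * z := by ring
        rw [this]
        exact mul_le_mul_of_nonneg_left kz (by positivity)
      · rw [min_eq_right h5]
        refine mul_le_mul_of_nonneg_right ?_ k0
        exact (pow_le_pow_right₀ z1 (by norm_num)).trans h12
    · rw [zero_pow two_ne_zero, zero_div]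
      refine mul_nonneg (Real.rpow_nonneg (hp0 i).le _) (le_min zero_le_one ?_)
      unfold kLu
      rw [(hV i h).2]
      simp [mul_inv_cancel₀ (hcp i).ne']
  refine ⟨K, e, e', H482.rowm w K, H482.colm w K, H482.cen w K,
    fun i => (prm i : ℝ) ^ (7 * α - 1 / 2), fun i => b i ^ 2 / (prm i : ℝ) ^ (7 * α - 1 / 2),
    fun i h => (hKW i h).1, fun i h => ?_, hOB, fun i => rfl, hee, ?_⟩
  · obtain ⟨h1, h2, h3⟩ := hKV i h
    have hr : H482.rowm w K i = 0 := by
      funext a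
      unfold H482.rowm
      rw [h1]
      exact (hwV i h).1 a
    have hc : H482.colm w K i = 0 := by
      funext a
      unfold H482.colm
      rw [h1]
      exact (hwV i h).2 a
    refine ⟨h1, h2, h3, hr, hc, ?_, ?_⟩
    · funext a c
      unfold H482.cen
      rw [hr, hc, h1]
      simp
    · rw [hb]
      simp [h]
  · refine (sum_le_sum fun i _ => (hee i).trans ?_).trans (hN ι prm hinj fun i => ?_)
    · exact mul_le_of_le_one_right (Real.rpow_nonneg (hp0 i).le _) (min_le_left _ _)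
    · have := (le_max_right K0 (N : ℝ)).trans (hp i)
      exact_mod_cast this

end Vale.Agent.P042.H386
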