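import Vale.Agent.P042.H386.K3
import Vale.Agent.P042.SS.MainMT

set_option autoImplicit false

/-! P042, row F.KER: the kernels `kN` satisfy `WP` / `VP`. -/

namespace Vale.Agent.P042.H386

open Finset Polynomial Vale.Agent.P042.H74 Vale.Agent.P042.SS Vale.Agent.P042.H954
open Vale.Agent.P042.H599 (cm Law klu)

set_option linter.unusedSectionVars false

/-- Weil's bound for the normalised complete sums -/
theorem Gam_weil {f : ℤ[X]} {p : ℕ} (hp : p.Prime) (hk : f.natDegree < p)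
    (hnc : ∃ j : ℕ, 1 ≤ j ∧ ¬ (p : ℤ) ∣ f.coeff j) {a : ℤ} (ha : IsCoprime a (p : ℤ)) :
    ‖Gam f a p‖ ≤ f.natDegree / √(p : ℝ) := by
  have : Fact p.Prime := ⟨hp⟩
  have : NeZero p := ⟨hp.ne_zero⟩
  have hp0 : (0 : ℝ) < p := by exact_mod_cast hp.pos
  have hs0 : 0 < √(p : ℝ) := Real.sqrt_pos.mpr hp0
  have h1 : NC f p := by
    obtain ⟨j, hj, hjc⟩ := hnc
    unfold NC
    refine hj.trans (le_natDegree_of_ne_zero ?_)
    rw [coeff_map]
    intro h
    apply hjc
    rw [← ZMod.intCast_zmod_eq_zero_iff_dvd]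
    simpa using h
  have h2 : ¬ (p : ℤ) ∣ a := by
    intro h
    have h3 : IsUnit (p : ℤ) := by
      have h4 := ha.symm
      exact h4.isUnit_of_dvd' dvd_rfl h
    have := Int.isUnit_iff.1 h3
    have := hp.two_le
    omega
  have h3 := ecs_prime f f.natDegree p le_rfl hk h1 a h2
  rw [Gam_eq_ecs, norm_div, Complex.norm_natCast, div_le_div_iff₀ hp0 hs0]
  have h4 : √(p : ℝ) * √(p : ℝ) = p := Real.mul_self_sqrt hp0.le
  calc ‖ecs f a p‖ * √(p : ℝ) ≤ f.natDegree * √(p : ℝ) * √(p : ℝ) :=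
        mul_le_mul_of_nonneg_right h3 hs0.le
    _ = f.natDegree * p := by rw [mul_assoc, h4]

/-- a prime which is good for `f` -/
structure GP (f : ℤ[X]) (p : ℕ) : Prop where
  pr : p.Prime
  big : 2 * f.natDegree ≤ p
  k1 : 1 ≤ f.natDegree
  nc : ∃ j : ℕ, 1 ≤ j ∧ ¬ (p : ℤ) ∣ f.coeff j

theorem GP.dns {f : ℤ[X]} {p : ℕ} (h : GP f p) : 1 / 2 ≤ dns f p := by
  have h1 := dns_ge f p h.pr h.k1 (by have := h.big; have := h.k1; omega) h.nc
  have hp0 : (0 : ℝ) < p := by exact_mod_cast h.pr.pos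
  have h2 : ((f.natDegree : ℝ) - 1) / p ≤ 1 / 2 := by
    rw [div_le_iff₀ hp0]
    have : (2 : ℝ) * f.natDegree ≤ p := by exact_mod_cast h.big
    linarith
  linarith

/-- **the kernel `kN f p` at a good prime, uniform reference** -/
theorem vp_kN {f : ℤ[X]} {p : ℕ} (h : GP f p) {X : Type} [Fintype X] {v : X → ℕ}
    (hX : Rs X p v) :
    VP (fun x y => kN f p ((v x : ℤ) - v y)) (4 * f.natDegree / √(p : ℝ)) (2 * f.natDegree) := by
  have hNS : NS f {p} := by
    intro q hq
    rw [mem_singleton] at hq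
    subst hq
    exact ⟨h.pr, by linarith [h.dns]⟩
  have hp : p ∈ ({p} : Finset ℕ) := mem_singleton_self p
  have hkp : f.natDegree < p := by have := h.big; have := h.k1; omega
  refine
    { ck := fun x => ?_
      ck' := fun y => ?_
      op := kN_op hNS hp (by positivity) (fun a ha =>
        (GamN_le hNS hp h.k1 h.big h.nc (Gam_weil h.pr hkp h.nc ha)).1) hX hX
      lo := fun x y => neg_one_le_kN f p _
      up := fun x y => by linarith [kN_le h.pr h.nc h.dns ((v x : ℤ) - v y)] }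
  · rw [hX.sum fun j => kN f p ((v x : ℤ) - j)]
    exact sum_kN_sub h.pr (by linarith [h.dns]) _
  · rw [hX.sum fun j => kN f p ((j : ℤ) - v y)]
    exact sum_kN_sub' h.pr (by linarith [h.dns]) _

/-- one prime of the state: sup bound and row sums for the kernel of `f` -/
structure PrSt (f : ℤ[X]) (nu : ℕ → ℝ) (A M : ℕ) (z : ℝ) (p : ℕ) : Prop where
  sup : ∀ a, p * cm nu A M p a ≤ z
  row : ∀ a < p, cm nu A M p a ≠ 0 →
    z⁻¹ ≤ ∑ b ∈ range p, cm nu A M p b * (1 + kN f p ((a : ℤ) - b))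
  col : ∀ a < p, cm nu A M p a ≠ 0 →
    z⁻¹ ≤ ∑ b ∈ range p, cm nu A M p b * (1 + kN f p ((b : ℤ) - a))

/-- **the kernel `kN g p` at a prime of the state** (`g = f` or a fibre polynomial of `f`) -/
theorem wp_kN {f g : ℤ[X]} {p : ℕ} (hg : GP g p) (hfg : ∀ t : ℤ, kN g p t = kN f p t)
    {nu : ℕ → ℝ} {A M : ℕ} (hL : Law nu A M) {z : ℝ} (hS : PrSt f nu A M z p)
    {X : Type} [Fintype X] {v : X → ℕ} (hX : Rs X p v) (hv : ∀ x, v x < p) :
    WP (fun x => cm nu A M p (v x)) (fun x y => kN g p ((v x : ℤ) - v y))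
      (4 * g.natDegree / √(p : ℝ)) (2 * g.natDegree) z := by
  have h := vp_kN hg hX
  exact
    { w0 := fun x => H599.cm_nonneg hL.nonneg p _
      w1 := by
        rw [hX.sum fun i => cm nu A M p i]
        exact H599.sum_cm hL.sum hg.pr.pos
      sup := fun x => by rw [hX.card]; exact hS.sup _
      row := fun x hx => by
        rw [hX.sum fun b => cm nu A M p b * (1 + kN g p ((v x : ℤ) - b))]
        simp only [hfg]
        exact hS.row (v x) (hv x) hx
      col := fun y hy => by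
        rw [hX.sum fun b => cm nu A M p b * (1 + kN g p ((b : ℤ) - v y))]
        simp only [hfg]
        exact hS.col (v y) (hv y) hy
      ck := h.ck
      ck' := h.ck'
      op := h.op
      lo := h.lo
      up := h.up }

theorem kLu_cm {nu : ℕ → ℝ} {A M p : ℕ} {X : Type} [Fintype X] {v : X → ℕ} (hX : Rs X p v) :
    kLu (fun x => cm nu A M p (v x)) = klu nu A M p := by
  unfold kLu klu
  rw [hX.card]
  exact hX.sum fun i => cm nu A M p i * Real.log (p * cm nu A M p i)

end Vale.Agent.P042.H386
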