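import Vale.Agent.P042.H386.K4

set_option autoImplicit false

/-! P042, row F.KER: the kernels of a state in the power regime, one theorem; integer form of the
tilts; the sum of the tilts. -/

namespace Vale.Agent.P042.H386

open Finset Polynomial Vale.Agent.P042.H74 Vale.Agent.P042.SS Vale.Agent.P042.H954
open Vale.Agent.P042.H599 (cm Law klu)

set_option linter.unusedSectionVars false

/-- the reference law of one prime: the state on `W`, uniform on `V` -/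
noncomputable def refW (b : Prop) [Decidable b] {X : Type} [Fintype X] (nu : ℕ → ℝ) (A M p : ℕ)
    (v : X → ℕ) (x : X) : ℝ :=
  if b then cm nu A M p (v x) else (Fintype.card X : ℝ)⁻¹

/-- **the kernels of a state** -/
theorem ker_kN (k : ℕ) (hk : 1 ≤ k) (α : ℝ) (hα : 0 < α) (hα1 : α ≤ 1 / 48) :
    ∃ K0 : ℝ, 1 ≤ K0 ∧ ∀ (f g : ℤ[X]) (nu : ℕ → ℝ) (A M : ℕ) (ι : Type) [Fintype ι]
      [DecidableEq ι] (prm : ι → ℕ) (V : ι → Type) [∀ i, Fintype (V i)]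
      [∀ i, DecidableEq (V i)] (v : ∀ i, V i → ℕ) (isW : ι → Prop) [DecidablePred isW],
      g.natDegree = k → Law nu A M → Function.Injective prm →
      (∀ i, K0 ≤ prm i ∧ GP g (prm i)) → (∀ i, Rs (V i) (prm i) (v i)) →
      (∀ i x, v i x < prm i) →
      (∀ i, isW i → (∀ t : ℤ, kN g (prm i) t = kN f (prm i) t) ∧
        PrSt f nu A M ((prm i : ℝ) ^ α) (prm i)) →
      ∃ (K : ∀ i, V i → V i → ℝ) (e e' : ∀ i, V i → ℝ) (u u' : ∀ i, V i → ℝ)
        (s : ∀ i, V i → V i → ℝ) (rho ee : ι → ℝ),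
        (∀ i, isW i → OutW (fun x => cm nu A M (prm i) (v i x))
          (fun x y => kN g (prm i) ((v i x : ℤ) - v i y)) (K i) (e i) (e' i) (prm i) α) ∧
        (∀ i, ¬ isW i → K i = (fun x y => kN g (prm i) ((v i x : ℤ) - v i y)) ∧ e i = 0 ∧
          e' i = 0 ∧ u i = 0 ∧ u' i = 0 ∧
          s i = (fun x y => kN g (prm i) ((v i x : ℤ) - v i y)) ∧ ee i = 0) ∧
        H365.OB (fun i => refW (isW i) nu A M (prm i) (v i)) K (fun _ => 0) u u' s rho ee ∧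
        (∀ i, rho i = (prm i : ℝ) ^ (7 * α - 1 / 2)) ∧
        (∀ i, ee i ≤ (prm i : ℝ) ^ (-(5 / 4 : ℝ)) *
          min 1 (kLu (refW (isW i) nu A M (prm i) (v i)))) ∧
        ∑ i, ee i ≤ 1 / 32 := by
  obtain ⟨K0, hK0, H⟩ := ker_F k hk α hα hα1
  refine ⟨K0, hK0, fun f g nu A M ι _ _ prm V _ _ v isW _ hg hL hinj hp hRs hv hW => ?_⟩
  have hW' : ∀ i, isW i → refW (isW i) nu A M (prm i) (v i)
      = fun x => cm nu A M (prm i) (v i x) := fun i h => by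
    funext x; unfold refW; rw [if_pos h]
  have hV' : ∀ i, ¬ isW i → refW (isW i) nu A M (prm i) (v i)
      = fun _ => (Fintype.card (V i) : ℝ)⁻¹ := fun i h => by
    funext x; unfold refW; rw [if_neg h]
  obtain ⟨K, e, e', u, u', s, rho, ee, h1, h2, h3, h4, h5, h6⟩ :=
    H ι prm V isW (fun i => refW (isW i) nu A M (prm i) (v i))
      (fun i x y => kN g (prm i) ((v i x : ℤ) - v i y)) hinj (fun i => (hp i).1)
      (fun i => by exact_mod_cast (hRs i).card)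
      (fun i h => by
        have h7 := wp_kN (hp i).2 (hW i h).1 hL (hW i h).2 (hRs i) (hv i)
        rw [hg] at h7
        rw [hW' i h]
        exact h7)
      (fun i h => ⟨by
        have h7 := vp_kN (hp i).2 (hRs i)
        rw [hg] at h7
        exact h7, hV' i h⟩)
  refine ⟨K, e, e', u, u', s, rho, ee, fun i h => ?_, h2, h3, h4, h5, h6⟩
  have h7 := h1 i h
  rw [hW' i h] at h7
  exact h7

/-! ### integer form -/

section lift

variable {X : Type} [Fintype X] {p : ℕ} {v : X → ℕ}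

/-- every integer has a representative in `X` -/
theorem rs_lift (hp : 0 < p) (hX : Rs X p v) (hv : ∀ x, v x < p) :
    ∃ τ : ℤ → X, (∀ n : ℤ, ((v (τ n) : ℕ) : ℤ) = n % p) ∧ ∀ x, τ (v x) = x := by
  classical
  have hc : Fintype.card X = p := by exact_mod_cast hX.card
  have himg : univ.image v = range p := by
    apply eq_of_subset_of_card_le
    · intro n hn
      obtain ⟨x, -, rfl⟩ := mem_image.1 hn
      exact mem_range.2 (hv x)
    · rw [card_image_of_injective _ hX.inj, card_univ, hc, card_range]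
  have hpz : (0 : ℤ) < p := by exact_mod_cast hp
  have h1 : ∀ n : ℤ, ∃ x : X, ((v x : ℕ) : ℤ) = n % p := by
    intro n
    have n1 := Int.emod_nonneg n hpz.ne'
    have n2 := Int.emod_lt_of_pos n hpz
    have h2 : (n % p).toNat ∈ univ.image v := by
      rw [himg, mem_range]
      omega
    obtain ⟨x, -, hx⟩ := mem_image.1 h2
    exact ⟨x, by rw [hx]; exact Int.toNat_of_nonneg n1⟩
  choose τ hτ using h1
  refine ⟨τ, hτ, fun x => hX.inj ?_⟩
  have h2 := hτ (v x)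
  rw [Int.emod_eq_of_lt (by positivity) (by exact_mod_cast hv x)] at h2
  exact_mod_cast h2

variable {τ : ℤ → X}

theorem lift_congr (hX : Rs X p v) (hτ : ∀ n : ℤ, ((v (τ n) : ℕ) : ℤ) = n % p) {n m : ℤ}
    (h : (p : ℤ) ∣ n - m) : τ n = τ m := by
  apply hX.inj
  have h1 : n % p = m % p := (Int.modEq_iff_dvd.mpr h).symm
  have h2 := hτ n
  rw [h1, ← hτ m] at h2
  exact_mod_cast h2

theorem lift_per (hX : Rs X p v) (hτ : ∀ n : ℤ, ((v (τ n) : ℕ) : ℤ) = n % p) (n : ℤ) :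
    τ (n + p) = τ n := lift_congr hX hτ (by simp)

theorem lift_sum (hX : Rs X p v) (hv2 : ∀ x, τ (v x) = x) (F : X → ℝ) :
    ∑ x ∈ range p, F (τ (x : ℤ)) = ∑ x, F x := by
  rw [← hX.sum fun i => F (τ (i : ℤ))]
  exact sum_congr rfl fun x _ => by rw [hv2]

theorem lift_kN (hτ : ∀ n : ℤ, ((v (τ n) : ℕ) : ℤ) = n % p) (g : ℤ[X]) (n m : ℤ) :
    kN g p (((v (τ n) : ℕ) : ℤ) - v (τ m)) = kN g p (n - m) := by
  apply kN_per'
  rw [hτ, hτ]
  have h1 : (p : ℤ) ∣ n - n % p := Int.dvd_self_sub_emod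
  have h2 : (p : ℤ) ∣ m - m % p := Int.dvd_self_sub_emod
  have h3 := dvd_sub h2 h1
  have h4 : m - m % p - (n - n % p) = n % p - m % p - (n - m) := by ring
  rwa [h4] at h3

/-- **integer form of the tilts of one prime** -/
theorem lift_tilt (hp : 0 < p) (hX : Rs X p v) (hv : ∀ x, v x < p) {g : ℤ[X]}
    {w : X → ℝ} {K : X → X → ℝ} {e e' : X → ℝ} {α : ℝ}
    (h : OutW w (fun x y => kN g p ((v x : ℤ) - v y)) K e e' p α) :
    ∃ τ : ℤ → X, (∀ n : ℤ, ((v (τ n) : ℕ) : ℤ) = n % p) ∧ (∀ x, τ (v x) = x) ∧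
      (∀ n m : ℤ, 1 + K (τ n) (τ m) = (1 + e (τ n)) * (1 + kN g p (n - m)) * (1 + e' (τ m))) ∧
      (∀ n : ℤ, e (τ (n + p)) = e (τ n) ∧ e' (τ (n + p)) = e' (τ n)) ∧
      ∑ x ∈ range p, e (τ (x : ℤ)) ^ 2 ≤
        p * ((p : ℝ) ^ (7 * α - 1 / 2) * √(kLu w)) ^ 2 ∧
      ∑ x ∈ range p, e' (τ (x : ℤ)) ^ 2 ≤
        p * ((p : ℝ) ^ (7 * α - 1 / 2) * √(kLu w)) ^ 2 := by
  obtain ⟨τ, h1, h2⟩ := rs_lift hp hX hv
  have hp0 : (0 : ℝ) < p := by exact_mod_cast hp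
  have key : ∀ f : X → ℝ, nm (fun _ : X => (Fintype.card X : ℝ)⁻¹) f ≤
      (p : ℝ) ^ (7 * α - 1 / 2) * √(kLu w) →
      ∑ x ∈ range p, f (τ (x : ℤ)) ^ 2 ≤ p * ((p : ℝ) ^ (7 * α - 1 / 2) * √(kLu w)) ^ 2 := by
    intro f hf
    rw [lift_sum hX h2 fun x => f x ^ 2]
    have h3 := pow_le_pow_left₀ (nm_nonneg _ f) hf 2
    rw [nm_sq fun _ => inv_nonneg.2 (Nat.cast_nonneg _), ← mul_sum, hX.card] at h3
    have h4 := mul_le_mul_of_nonneg_left h3 hp0.le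
    rwa [← mul_assoc, mul_inv_cancel₀ hp0.ne', one_mul] at h4
  refine ⟨τ, h1, h2, fun n m => ?_, fun n => ?_, key e h.nme, key e' h.nme'⟩
  · rw [h.tilt, lift_kN h1 g n m]
  · rw [lift_per hX h1 n]
    exact ⟨rfl, rfl⟩

end lift

/-! ### the sum of the tilts -/

theorem tilt_sum {ι : Type} [Fintype ι] {prm : ι → ℕ} (hinj : Function.Injective prm)
    (h1 : ∀ i, 1 ≤ prm i) {Y : ℝ} (hY : ∀ i, (prm i : ℝ) ≤ Y) (hY1 : 1 ≤ Y) {α : ℝ} (hα : 0 ≤ α)
    {κ : ι → ℝ} (hκ : ∀ i, 0 ≤ κ i) :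
    ∑ i, (prm i : ℝ) ^ (7 * α - 1 / 2) * √(κ i) ≤
      √(Y ^ (14 * α) * (1 + Real.log Y)) * √(∑ i, κ i) := by
  have hp0 : ∀ i, (0 : ℝ) < prm i := fun i => by exact_mod_cast h1 i
  have h2 : (∑ i, (prm i : ℝ) ^ (7 * α - 1 / 2) * √(κ i)) ^ 2 ≤
      (∑ i, ((prm i : ℝ) ^ (7 * α - 1 / 2)) ^ 2) * ∑ i, √(κ i) ^ 2 :=
    sum_mul_sq_le_sq_mul_sq _ _ _
  have h3 : ∑ i, √(κ i) ^ 2 = ∑ i, κ i := sum_congr rfl fun i _ => Real.sq_sqrt (hκ i)
  have h4 : ∑ i, ((prm i : ℝ) ^ (7 * α - 1 / 2)) ^ 2 ≤ Y ^ (14 * α) * (1 + Real.log Y) := by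
    have h5 : ∀ i ∈ univ, ((prm i : ℝ) ^ (7 * α - 1 / 2)) ^ 2 ≤ Y ^ (14 * α) * ((prm i : ℝ))⁻¹ := by
      intro i _
      have e1 : ((prm i : ℝ) ^ (7 * α - 1 / 2)) ^ 2 = (prm i : ℝ) ^ (14 * α) * ((prm i : ℝ))⁻¹ := by
        rw [← Real.rpow_natCast, ← Real.rpow_mul (hp0 i).le, ← Real.rpow_neg_one,
          ← Real.rpow_add (hp0 i)]
        congr 1
        push_cast
        ring
      rw [e1]
      refine mul_le_mul_of_nonneg_right ?_ (inv_nonneg.2 (hp0 i).le)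
      exact Real.rpow_le_rpow (hp0 i).le (hY i) (by positivity)
    refine (sum_le_sum h5).trans ?_
    rw [← mul_sum]
    refine mul_le_mul_of_nonneg_left ?_ (by positivity)
    classical
    obtain ⟨N, hN⟩ : ∃ N, N = ⌊Y⌋₊ := ⟨_, rfl⟩
    have g1 : ∑ i, ((prm i : ℝ))⁻¹ = ∑ n ∈ univ.image prm, ((n : ℝ))⁻¹ := by
      rw [sum_image fun i _ j _ h => hinj h]
    have g2 : univ.image prm ⊆ Finset.Icc 1 N := by
      intro n hn
      obtain ⟨i, -, rfl⟩ := mem_image.1 hn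
      rw [Finset.mem_Icc, hN]
      exact ⟨h1 i, Nat.le_floor (hY i)⟩
    have g3 : ∑ n ∈ univ.image prm, ((n : ℝ))⁻¹ ≤ ∑ n ∈ Finset.Icc 1 N, ((n : ℝ))⁻¹ :=
      sum_le_sum_of_subset_of_nonneg g2 fun n _ _ => by positivity
    have g4 : ∑ n ∈ Finset.Icc 1 N, ((n : ℝ))⁻¹ = ((harmonic N : ℚ) : ℝ) := by
      rw [harmonic_eq_sum_Icc]
      push_cast
      rfl
    have g5 := harmonic_le_one_add_log N
    have g6 : Real.log (N : ℝ) ≤ Real.log Y := by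
      rcases Nat.eq_zero_or_pos N with h | h
      · rw [h]
        simp only [Nat.cast_zero, Real.log_zero]
        exact Real.log_nonneg hY1
      · exact Real.log_le_log (by exact_mod_cast h) (by rw [hN]; exact Nat.floor_le (by linarith))
    rw [g1]
    linarith [g4 ▸ g3]
  rw [h3] at h2
  have h6 : 0 ≤ ∑ i, κ i := sum_nonneg fun i _ => hκ i
  have h7 : 0 ≤ ∑ i, (prm i : ℝ) ^ (7 * α - 1 / 2) * √(κ i) :=
    sum_nonneg fun i _ => mul_nonneg (Real.rpow_nonneg (hp0 i).le _) (Real.sqrt_nonneg _)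
  have h8 := h2.trans (mul_le_mul_of_nonneg_right h4 h6)
  rw [← Real.sqrt_mul (by
    have := Real.log_nonneg hY1
    positivity)]
  exact Real.le_sqrt_of_sq_le h8

end Vale.Agent.P042.H386
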