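import Vale.Agent.P042.H386.K6

/-! P042, row F.KER: the kernels of all primes in the power regime.
`ker_F`, `ker_kN`, `kN_fer`, `Gam_weil`, `wp_kN`, `vp_kN`, `lift_tilt`, `tilt_sum`, `GP.fer`,
`prSt_of`. -/
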